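import Vale.Agent.P039.Sk.Final

/-! Splittings of the black vertices. -/

namespace Vale.Agent.P039.Sk

variable {B W V B' W' : Type}

/-- all white vertices are connected through black vertices of colour `σ` -/
def Web.WConn (X : Web B W) (col : B → Bool) (σ : Bool) : Prop :=
  ∀ w w' : W, Relation.EqvGen
    (fun w w' => ∃ b i i', col b = σ ∧ X.e i b = w ∧ X.e i' b = w') w w'

/-- the white vertices are connected through the black vertices of either colour -/
structure Web.Split (X : Web B W) (col : B → Bool) : Prop where
  t : X.WConn col true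
  f : X.WConn col false

/-- all black vertices on the face `v` have the same colour -/
def Lab.Mono {X : Web B W} (L : Lab X V) (col : B → Bool) (v : V) : Prop :=
  ∀ k b b', L.c k b = v → L.c k b' = v → col b = col b'

/-- orientation reversed (the colours `1` and `2` are exchanged) -/
def Web.rev (X : Web B W) : Web B W := ⟨fun i => X.e (-i)⟩

theorem Web.WConn.flip {X : Web B W} {col : B → Bool} {σ : Bool} (h : X.WConn col σ) :
    X.WConn (fun b => !(col b)) (!σ) := by
  intro w w'
  have key : ∀ w w', Relation.EqvGen
      (fun w w' => ∃ b i i', col b = σ ∧ X.e i b = w ∧ X.e i' b = w') w w' →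
      Relation.EqvGen
      (fun w w' => ∃ b i i', (!(col b)) = (!σ) ∧ X.e i b = w ∧ X.e i' b = w') w w' := by
    intro w w' h
    induction h with
    | rel x y h =>
      obtain ⟨b, i, i', h1, h2, h3⟩ := h
      exact Relation.EqvGen.rel _ _ ⟨b, i, i', by rw [h1], h2, h3⟩
    | refl x => exact Relation.EqvGen.refl _
    | symm x y _ ih => exact ih.symm
    | trans x y z _ _ ih1 ih2 => exact ih1.trans _ _ _ ih2
  exact key w w' (h w w')

theorem Web.Split.flip {X : Web B W} {col : B → Bool} (h : X.Split col) :
    X.Split (fun b => !(col b)) := ⟨h.f.flip, h.t.flip⟩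

theorem Lab.Mono.flip {X : Web B W} {L : Lab X V} {col : B → Bool} {v : V} (h : L.Mono col v) :
    L.Mono (fun b => !(col b)) v := by
  intro k b b' h1 h2
  show (!(col b)) = (!(col b'))
  rw [h k b b' h1 h2]

end Vale.Agent.P039.Sk
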