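import Vale.Agent.P039.Sp.Defs

/-! Splittings and marks when a digon is removed. -/

namespace Vale.Agent.P039.Sk

variable {B W V B' W' : Type}

variable {Y : Web B W} {X : Web B' W'} {f : B' → B} {g : W' → W} {j : Fin 3} {b : B}
  {col : B → Bool}

/-- a white vertex has a neighbour of each colour -/
theorem Web.WConn.dg_nb {σ : Bool} (h : Y.WConn col σ) {w w' : W} (hw : w' ≠ w) :
    ∃ i b', col b' = σ ∧ Y.e i b' = w := by
  by_contra hno
  have key : ∀ x y, Relation.EqvGen
      (fun w w' => ∃ b i i', col b = σ ∧ Y.e i b = w ∧ Y.e i' b = w') x y →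
      (x = w ↔ y = w) := by
    intro x y hxy
    induction hxy with
    | rel x y h =>
      obtain ⟨b', i, i', h1, h2, h3⟩ := h
      constructor
      · intro hx
        exact absurd ⟨i, b', h1, h2.trans hx⟩ hno
      · intro hy
        exact absurd ⟨i', b', h1, h3.trans hy⟩ hno
    | refl x => exact Iff.rfl
    | symm x y _ ih => exact ih.symm
    | trans x y z _ _ ih1 ih2 => exact ih1.trans ih2
  exact hw ((key _ _ (h w w')).1 rfl)

/-- the third neighbour of the white vertex of a digon has the other colour -/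
theorem DgRel.col_beta (R : DgRel Y X f g j b) (hs : Y.Split col)
    (hN : ∃ w, w ≠ Y.e (j + 2) b) {β : B'} (e : Y.e j (f β) = Y.e (j + 2) b) :
    col (f β) = !(col b) := by
  obtain ⟨w', hw'⟩ := hN
  have hc : Y.WConn col (!(col b)) := by
    cases hb : col b
    · exact hs.t
    · exact hs.f
  obtain ⟨i, b', h1, h2⟩ := hc.dg_nb hw'
  have hne : b' ≠ b := by
    rintro rfl
    cases hb : col b' <;> simp [hb] at h1
  rcases fcase i j with hi | hi | hi
  · rw [hi, ← e] at h2
    rw [← (Y.e j).injective h2]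
    exact h1
  · rw [hi, ← R.face] at h2
    exact absurd ((Y.e (j + 1)).injective h2) hne
  · rw [hi] at h2
    exact absurd ((Y.e (j + 2)).injective h2) hne

theorem DgRel.wconn (R : DgRel Y X f g j b) {σ : Bool} (hs : Y.WConn col σ) :
    X.WConn (fun a => col (f a)) σ := by
  obtain ⟨ω, hω⟩ := R.out
  have hgw : ∀ z, g z ≠ Y.e (j + 2) b := fun z => (R.gr _).1 ⟨z, rfl⟩
  -- the collapse map
  have hφ : ∃ φ : W → W', (∀ z, φ (g z) = z) ∧ φ (Y.e (j + 2) b) = ω := by
    have h0 : ∀ w : W, ∃ x : W', (∀ z, w = g z → x = z) ∧ (w = Y.e (j + 2) b → x = ω) := by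
      intro w
      by_cases hw : w = Y.e (j + 2) b
      · exact ⟨ω, fun z h => absurd (h.symm.trans hw) (hgw z), fun _ => rfl⟩
      · obtain ⟨z, hz⟩ := (R.gr _).2 hw
        exact ⟨z, fun z' h => R.gi (hz.trans h), fun h => absurd h hw⟩
    choose φ h1 h2 using h0
    exact ⟨φ, fun z => h1 _ _ rfl, h2 _ rfl⟩
  obtain ⟨φ, hφg, hφw⟩ := hφ
  have hφb : ∀ i, φ (Y.e i b) = ω := by
    intro i
    rcases fcase i j with hi | hi | hi
    · rw [hi, ← hω, hφg]
    · rw [hi, R.face, hφw]
    · rw [hi, hφw]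
  have hφf : ∀ i a, φ (Y.e i (f a)) = X.e i a := by
    intro i a
    by_cases hi : i = j
    · rw [hi]
      by_cases hw : Y.e j (f a) = Y.e (j + 2) b
      · rw [hw, hφw]
        exact R.gi (hω.trans (R.out1 a hw).symm)
      · rw [R.same a hw, hφg]
    · rw [R.other i hi, hφg]
  have key : ∀ x y, Relation.EqvGen
      (fun w w' => ∃ b i i', col b = σ ∧ Y.e i b = w ∧ Y.e i' b = w') x y →
      Relation.EqvGen
      (fun w w' => ∃ a i i', col (f a) = σ ∧ X.e i a = w ∧ X.e i' a = w') (φ x) (φ y) := by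
    intro x y hxy
    induction hxy with
    | rel x y h =>
      obtain ⟨b', i, i', h1, rfl, rfl⟩ := h
      by_cases hb : b' = b
      · rw [hb, hφb, hφb]
        exact Relation.EqvGen.refl _
      · obtain ⟨a, rfl⟩ := (R.fr _).2 hb
        exact Relation.EqvGen.rel _ _ ⟨a, i, i', h1, (hφf i a).symm, (hφf i' a).symm⟩
    | refl x => exact Relation.EqvGen.refl _
    | symm x y _ ih => exact Relation.EqvGen.symm _ _ ih
    | trans x y z _ _ ih1 ih2 => exact Relation.EqvGen.trans _ _ _ ih1 ih2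
  intro w w'
  have := key _ _ (hs (g w) (g w'))
  rwa [hφg, hφg] at this

theorem DgRel.split (R : DgRel Y X f g j b) (hs : Y.Split col) (hN : ∃ w, w ≠ Y.e (j + 2) b) :
    X.Split (fun a => col (f a)) := ⟨R.wconn hs.t, R.wconn hs.f⟩

/-- the two faces next to a digon are not monochromatic -/
theorem DgRel.not_mono (R : DgRel Y X f g j b) (L : Lab Y V) (hs : Y.Split col)
    (hN : ∃ w, w ≠ Y.e (j + 2) b) :
    ¬ L.Mono col (L.c (j + 1) b) ∧ ¬ L.Mono col (L.c (j + 2) b) := by
  obtain ⟨β, hβ⟩ := R.exists_beta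
  have hcol := R.col_beta hs hN hβ
  have hne : col (f β) ≠ col b := by
    rw [hcol]
    cases col b <;> simp
  exact ⟨fun h => hne (h (j + 1) (f β) b (R.c1 L hβ) rfl),
    fun h => hne (h (j + 2) (f β) b (R.c2 L hβ) rfl)⟩

/-- other faces: no change -/
theorem DgRel.mono_iff (R : DgRel Y X f g j b) (L : Lab Y V)
    (L' : Lab X {v : V // v ≠ L.c j b})
    (hL' : ∀ k a, ((L'.c k a : {v : V // v ≠ L.c j b}) : V) = L.c k (f a))
    (z : {v : V // v ≠ L.c j b}) (h1 : z.1 ≠ L.c (j + 1) b) (h2 : z.1 ≠ L.c (j + 2) b) :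
    L'.Mono (fun a => col (f a)) z ↔ L.Mono col z.1 := by
  have hb : ∀ k b', L.c k b' = z.1 → ∃ a, f a = b' := by
    intro k b' h
    rw [R.fr]
    rintro rfl
    rcases fcase k j with hk | hk | hk
    · rw [hk] at h
      exact z.2 h.symm
    · rw [hk] at h
      exact h1 h.symm
    · rw [hk] at h
      exact h2 h.symm
  constructor
  · intro hm k b1 b2 e1 e2
    obtain ⟨a1, rfl⟩ := hb k b1 e1
    obtain ⟨a2, rfl⟩ := hb k b2 e2
    exact hm k a1 a2 (Subtype.ext (by rw [hL', e1])) (Subtype.ext (by rw [hL', e2]))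
  · intro hm k a1 a2 e1 e2
    refine hm k (f a1) (f a2) ?_ ?_
    · rw [← hL', e1]
    · rw [← hL', e2]

end Vale.Agent.P039.Sk
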