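import Vale.Agent.P039.Sp.LemD

/-! Splittings and marks under smoothing. -/

namespace Vale.Agent.P039.Sk

variable {B W V B' W' : Type}

variable {Y : Web B W} {X : Web B' W'} {f : B' → B} {g : W' → W} {j : Fin 3} {b₁ b₂ : B}
  {col : B → Bool}

/-- a map back from the larger web on white vertices, with prescribed values at the 4-face -/
theorem SqRel.down_phi (R : SqRel Y X f g j b₁ b₂) (z₁ z₂ : W') :
    ∃ φ : W → W', (∀ w, φ (g w) = w) ∧ φ (Y.e (j + 2) b₁) = z₁ ∧ φ (Y.e (j + 2) b₂) = z₂ := by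
  classical
  have hww : Y.e (j + 2) b₂ ≠ Y.e (j + 2) b₁ := fun h => R.ne ((Y.e _).injective h).symm
  refine ⟨fun w => if w = Y.e (j + 2) b₁ then z₁ else if w = Y.e (j + 2) b₂ then z₂ else
      if h : ∃ a, g a = w then h.choose else z₁, ?_, ?_, ?_⟩
  · intro a
    have hex : ∃ a', g a' = g a := ⟨a, rfl⟩
    simp only [R.g_ne₁ a, R.g_ne₂ a, if_false]
    rw [dif_pos hex]
    exact R.gi hex.choose_spec
  · simp
  · simp [hww]

theorem down_lift {A A' : Type} {r : A → A → Prop} {r' : A' → A' → Prop} (φ : A → A')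
    (h : ∀ x y, r x y → Relation.EqvGen r' (φ x) (φ y)) {x y : A} (hxy : Relation.EqvGen r x y) :
    Relation.EqvGen r' (φ x) (φ y) := by
  induction hxy with
  | rel x y h' => exact h x y h'
  | refl x => exact Relation.EqvGen.refl _
  | symm x y _ ih => exact ih.symm
  | trans x y z _ _ ih1 ih2 => exact ih1.trans _ _ _ ih2

theorem SqRel.down_gen (R : SqRel Y X f g j b₁ b₂) {σ : Bool} (hs : Y.WConn col σ)
    {β₁ β₂ : B'} (e₁ : Y.e j (f β₁) = Y.e (j + 2) b₁) (e₂ : Y.e j (f β₂) = Y.e (j + 2) b₂)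
    {o₁ o₂ : W'} (ho₁ : g o₁ = Y.e j b₁) (ho₂ : g o₂ = Y.e j b₂) (z₁ z₂ : W')
    (H1 : col b₁ = σ → Relation.EqvGen
      (fun w w' => ∃ b i i', col (f b) = σ ∧ X.e i b = w ∧ X.e i' b = w') z₁ o₁ ∧ Relation.EqvGen
      (fun w w' => ∃ b i i', col (f b) = σ ∧ X.e i b = w ∧ X.e i' b = w') z₂ o₁)
    (H2 : col b₂ = σ → Relation.EqvGen
      (fun w w' => ∃ b i i', col (f b) = σ ∧ X.e i b = w ∧ X.e i' b = w') z₁ o₂ ∧ Relation.EqvGen
      (fun w w' => ∃ b i i', col (f b) = σ ∧ X.e i b = w ∧ X.e i' b = w') z₂ o₂)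
    (H3 : col (f β₁) = σ → Relation.EqvGen
      (fun w w' => ∃ b i i', col (f b) = σ ∧ X.e i b = w ∧ X.e i' b = w') z₁ o₂)
    (H4 : col (f β₂) = σ → Relation.EqvGen
      (fun w w' => ∃ b i i', col (f b) = σ ∧ X.e i b = w ∧ X.e i' b = w') z₂ o₁) :
    X.WConn (fun b => col (f b)) σ := by
  obtain ⟨φ, hg, hz₁, hz₂⟩ := R.down_phi z₁ z₂
  intro w w'
  have hx₁ : X.e j β₁ = o₂ := R.gi ((R.out1 _ e₁).trans ho₂.symm)
  have hx₂ : X.e j β₂ = o₁ := R.gi ((R.out2 _ e₂).trans ho₁.symm)
  have hφ₁ : φ (Y.e j b₁) = o₁ := by rw [← ho₁, hg]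
  have hφ₂ : φ (Y.e j b₂) = o₂ := by rw [← ho₂, hg]
  -- each hyperedge is collapsed
  have key : ∀ b, col b = σ → ∃ o : W', ∀ i, Relation.EqvGen
      (fun w w' => ∃ b i i', col (f b) = σ ∧ X.e i b = w ∧ X.e i' b = w') (φ (Y.e i b)) o := by
    intro b hb
    rcases R.cases b with rfl | rfl | ⟨a, rfl⟩
    · refine ⟨o₁, fun i => ?_⟩
      rcases fcase i j with rfl | rfl | rfl
      · rw [hφ₁]; exact Relation.EqvGen.refl _
      · rw [R.face', hz₂]; exact (H1 hb).2
      · rw [hz₁]; exact (H1 hb).1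
    · refine ⟨o₂, fun i => ?_⟩
      rcases fcase i j with rfl | rfl | rfl
      · rw [hφ₂]; exact Relation.EqvGen.refl _
      · rw [R.face, hz₁]; exact (H2 hb).1
      · rw [hz₂]; exact (H2 hb).2
    · refine ⟨X.e j a, fun i => ?_⟩
      rcases fcase i j with rfl | rfl | rfl
      · by_cases c1 : Y.e i (f a) = Y.e (i + 2) b₁
        · have ha : a = β₁ := R.fi ((Y.e i).injective (c1.trans e₁.symm))
          subst ha
          rw [c1, hz₁, hx₁]
          exact H3 hb
        · by_cases c2 : Y.e i (f a) = Y.e (i + 2) b₂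
          · have ha : a = β₂ := R.fi ((Y.e i).injective (c2.trans e₂.symm))
            subst ha
            rw [c2, hz₂, hx₂]
            exact H4 hb
          · rw [R.same a c1 c2, hg]
            exact Relation.EqvGen.refl _
      · rw [R.other _ (fne1 j), hg]
        exact Relation.EqvGen.rel _ _ ⟨a, _, _, hb, rfl, rfl⟩
      · rw [R.other _ (fne2 j), hg]
        exact Relation.EqvGen.rel _ _ ⟨a, _, _, hb, rfl, rfl⟩
  have h := down_lift (r' := fun w w' => ∃ b i i', col (f b) = σ ∧ X.e i b = w ∧ X.e i' b = w')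
    φ (fun x y hxy => by
      obtain ⟨b, i, i', hb, rfl, rfl⟩ := hxy
      obtain ⟨o, ho⟩ := key b hb
      exact (ho i).trans _ _ _ (ho i').symm) (hs (g w) (g w'))
  rw [hg, hg] at h
  exact h

theorem SqRel.down_false (R : SqRel Y X f g j b₁ b₂) (hs : Y.Split col) (h1 : col b₁ = true)
    (h2 : col b₂ = false) {β₂ : B'} (e₂ : Y.e j (f β₂) = Y.e (j + 2) b₂)
    (c₂ : col (f β₂) = true) : X.WConn (fun b => col (f b)) false := by
  obtain ⟨β₁, β₂', -, e₁, -⟩ := R.betas
  obtain ⟨o₁, ho₁⟩ := R.o1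
  obtain ⟨o₂, ho₂⟩ := R.o2
  refine R.down_gen hs.f e₁ e₂ ho₁ ho₂ o₂ o₂ ?_ ?_ ?_ ?_
  · intro h
    rw [h1] at h
    exact absurd h (by decide)
  · exact fun _ => ⟨Relation.EqvGen.refl _, Relation.EqvGen.refl _⟩
  · exact fun _ => Relation.EqvGen.refl _
  · intro h
    rw [c₂] at h
    exact absurd h (by decide)

theorem SqRel.ne_of_wconn [Fintype B] [Fintype V] [DecidableEq V]
    (R : SqRel Y X f g j b₁ b₂) (L : Lab Y V) (hc : Fintype.card V = Fintype.card B + 2)
    {col' : B' → Bool} {σ : Bool} (h : X.WConn col' σ) :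
    L.c (j + 1) b₁ ≠ L.c (j + 1) b₂ := by
  classical
  intro hp
  obtain ⟨β₁, β₂, hβ, h₁, h₂⟩ := R.betas
  letI : Fintype B' := Fintype.ofInjective f R.fi
  letI : Fintype W' := Fintype.ofEquiv B' (X.e 0)
  have hle := euler_le (V := {v : V // v ≠ L.c j b₁}) X
    (fun k a => ⟨L.c k (f a), R.c_ne_s L k a⟩) ?_ ?_ h
  · have hcB := R.card_B
    have hcV : Fintype.card {v : V // v ≠ L.c j b₁} = Fintype.card V - 1 := by
      rw [Fintype.card_subtype_compl, Fintype.card_subtype_eq]
    omega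
  · -- step
    intro k b b' h
    apply Subtype.ext
    show L.c k (f b') = L.c k (f b)
    rcases fcase k j with rfl | rfl | rfl
    · exact L.step k (f b) (f b') (R.Y_of_j h)
    · have h' : X.e (j + 2) b' = X.e j b := by rw [f11, f12] at h; exact h
      by_cases c1 : Y.e j (f b) = Y.e (j + 2) b₁
      · have e1 : L.c (j + 1) (f b') = L.c (j + 1) b₂ := by
          refine L.step1 j ?_
          rw [R.other _ (fne2 j), h', R.out1 _ c1]
        rw [e1, (R.c_β₁ L c1).1, hp]
      · by_cases c2 : Y.e j (f b) = Y.e (j + 2) b₂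
        · have e1 : L.c (j + 1) (f b') = L.c (j + 1) b₁ := by
            refine L.step1 j ?_
            rw [R.other _ (fne2 j), h', R.out2 _ c2]
          rw [e1, (R.c_β₂ L c2).1, hp]
        · refine L.step1 j ?_
          rw [R.other _ (fne2 j), h', R.same _ c1 c2]
    · have h' : X.e j b' = X.e (j + 1) b := by rw [f21, f22] at h; exact h
      by_cases c1 : Y.e j (f b') = Y.e (j + 2) b₁
      · rw [(R.c_β₁ L c1).2]
        refine L.step2 j ?_
        rw [R.other _ (fne1 j), ← h', R.out1 _ c1]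
      · by_cases c2 : Y.e j (f b') = Y.e (j + 2) b₂
        · rw [(R.c_β₂ L c2).2]
          refine L.step2 j ?_
          rw [R.other _ (fne1 j), ← h', R.out2 _ c2]
        · refine L.step2 j ?_
          rw [R.other _ (fne1 j), ← h', R.same _ c1 c2]
  · -- surj
    rintro ⟨v, hv⟩
    have fin : ∀ k a, L.c k (f a) = v → ∃ j' a', (⟨L.c j' (f a'), R.c_ne_s L j' a'⟩ :
        {v : V // v ≠ L.c j b₁}) = ⟨v, hv⟩ := by
      intro k a ha
      exact ⟨k, a, Subtype.ext ha⟩
    obtain ⟨k, b, hb⟩ := L.surj v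
    rcases R.cases b with rfl | rfl | ⟨a, rfl⟩
    · rcases fcase k j with rfl | rfl | rfl
      · exact absurd hb.symm hv
      · exact fin (j + 1) β₁ (by rw [(R.c_β₁ L h₁).1, hb])
      · exact fin (j + 2) β₂ (by rw [(R.c_β₂ L h₂).2, hb])
    · rcases fcase k j with rfl | rfl | rfl
      · exact absurd (hb.symm.trans (R.c_s L)) hv
      · exact fin (j + 1) β₂ (by rw [(R.c_β₂ L h₂).1, hb])
      · exact fin (j + 2) β₁ (by rw [(R.c_β₁ L h₁).2, hb])
    · exact fin k a hb

theorem SqRel.down_true [Finite B] (R : SqRel Y X f g j b₁ b₂) (hs : Y.Split col)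
    (h1 : col b₁ = true) (h2 : col b₂ = false) {β₁ β₂ : B'}
    (e₁ : Y.e j (f β₁) = Y.e (j + 2) b₁) (e₂ : Y.e j (f β₂) = Y.e (j + 2) b₂)
    (c₂ : col (f β₂) = true)
    (hcase : col (f β₁) = false ∨ (¬ Y.SameFace (j + 1) b₁ b₂ ∧
      ∀ b, Y.SameFace (j + 1) b₂ b → b ≠ b₂ → col b = true)) :
    X.WConn (fun b => col (f b)) true := by
  obtain ⟨o₁, ho₁⟩ := R.o1
  obtain ⟨o₂, ho₂⟩ := R.o2
  rcases hcase with hc | ⟨hp, hface⟩
  · refine R.down_gen hs.t e₁ e₂ ho₁ ho₂ o₁ o₁ ?_ ?_ ?_ ?_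
    · exact fun _ => ⟨Relation.EqvGen.refl _, Relation.EqvGen.refl _⟩
    · intro h
      rw [h2] at h
      exact absurd h (by decide)
    · intro h
      rw [hc] at h
      exact absurd h (by decide)
    · exact fun _ => Relation.EqvGen.refl _
  · have hconn : Relation.EqvGen
        (fun w w' => ∃ b i i', col (f b) = true ∧ X.e i b = w ∧ X.e i' b = w') o₂ o₁ := by
      by_contra hne
      set ρ : Equiv.Perm B := Y.rho (j + 1) with hρ
      have hstep : ∀ x, Y.e (j + 2) (ρ x) = Y.e j x := by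
        intro x
        simp only [hρ, Web.rho, f11, f12, Equiv.trans_apply, Equiv.apply_symm_apply]
      have hx₂ : X.e j β₂ = o₁ := R.gi ((R.out2 _ e₂).trans ho₁.symm)
      have key : ∀ k : ℕ, ∃ a : B', (ρ ^ (k + 1)) b₂ = f a ∧ Relation.EqvGen
          (fun w w' => ∃ b i i', col (f b) = true ∧ X.e i b = w ∧ X.e i' b = w')
            o₂ (X.e (j + 2) a) := by
        intro k
        induction k with
        | zero =>
          rw [zero_add, pow_one]
          have h3 := hstep b₂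
          rcases R.cases (ρ b₂) with h | h | ⟨a, h⟩
          · rw [h] at h3
            exact absurd h3.symm R.n21
          · rw [h] at h3
            exact absurd h3.symm R.n22
          · refine ⟨a, h, ?_⟩
            rw [h, R.other _ (fne2 j), ← ho₂] at h3
            rw [R.gi h3]
            exact Relation.EqvGen.refl _
        | succ k ih =>
          obtain ⟨a, ha, ih2⟩ := ih
          have hx' : (ρ ^ (k + 1 + 1)) b₂ = ρ (f a) := by
            rw [pow_succ', Equiv.Perm.mul_apply, ha]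
          have hsame : Y.SameFace (j + 1) b₂ (f a) := ⟨((k + 1 : ℕ) : ℤ), by
            rw [zpow_natCast]; exact ha⟩
          have hsame' : Y.SameFace (j + 1) b₂ (ρ (f a)) := ⟨((k + 1 + 1 : ℕ) : ℤ), by
            rw [zpow_natCast]; exact hx'⟩
          have hcol : col (f a) = true := hface _ hsame (R.f_ne₂ a)
          have hj : Relation.EqvGen
              (fun w w' => ∃ b i i', col (f b) = true ∧ X.e i b = w ∧ X.e i' b = w')
              o₂ (X.e j a) :=
            ih2.trans _ _ _ (Relation.EqvGen.rel _ _ ⟨a, _, _, hcol, rfl, rfl⟩)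
          have h3 := hstep (f a)
          rw [hx']
          rcases R.cases (ρ (f a)) with h | h | ⟨a', h⟩
          · rw [h] at hsame'
            exact absurd hsame'.symm hp
          · rw [h] at h3
            have h4 : a = β₂ := R.fi ((Y.e j).injective (h3.symm.trans e₂.symm))
            rw [h4, hx₂] at hj
            exact absurd hj hne
          · refine ⟨a', h, ?_⟩
            rw [h, R.other _ (fne2 j)] at h3
            rw [← R.same' h3.symm]
            exact hj
      have hpos : 0 < orderOf ρ := orderOf_pos ρ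
      obtain ⟨k, hk⟩ : ∃ k, orderOf ρ = k + 1 := ⟨orderOf ρ - 1, by omega⟩
      obtain ⟨a, ha, -⟩ := key k
      rw [← hk, pow_orderOf_eq_one, Equiv.Perm.one_apply] at ha
      exact R.f_ne₂ a ha.symm
    refine R.down_gen hs.t e₁ e₂ ho₁ ho₂ o₂ o₁ ?_ ?_ ?_ ?_
    · exact fun _ => ⟨hconn, Relation.EqvGen.refl _⟩
    · intro h
      rw [h2] at h
      exact absurd h (by decide)
    · exact fun _ => Relation.EqvGen.refl _
    · exact fun _ => Relation.EqvGen.refl _

/-- monochromatic faces stay monochromatic -/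
theorem SqRel.mono_down [DecidableEq V] (R : SqRel Y X f g j b₁ b₂) (L : Lab Y V)
    (L' : Lab X (L.V1 j b₁ b₂))
    (hL' : ∀ k b, ((L'.c k b : L.V1 j b₁ b₂) : V) =
      if L.c k (f b) = L.c (j + 1) b₂ then L.c (j + 1) b₁ else L.c k (f b))
    (h1 : col b₁ = true) (h2 : col b₂ = false) {β₁ β₂ : B'}
    (e₁ : Y.e j (f β₁) = Y.e (j + 2) b₁) (e₂ : Y.e j (f β₂) = Y.e (j + 2) b₂)
    (c₂ : col (f β₂) = true)
    (hcase : col (f β₁) = false ∨ (∀ b, L.c (j + 1) b = L.c (j + 1) b₂ → b ≠ b₂ → col b = true))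
    {z : V} (hz : L.Mono col z) (hzs : z ≠ L.c j b₁) :
    ∃ hz' : z ≠ L.c j b₁ ∧ z ≠ L.c (j + 1) b₂, L'.Mono (fun b => col (f b)) ⟨z, hz'⟩ := by
  have hzp : z ≠ L.c (j + 1) b₂ := by
    intro h
    have h3 := hz (j + 1) b₂ (f β₂) h.symm ((R.c_β₂ L e₂).1.trans h.symm)
    rw [h2, c₂] at h3
    exact absurd h3 (by decide)
  refine ⟨⟨hzs, hzp⟩, ?_⟩
  intro k b b' hb hb'
  have hb := congrArg Subtype.val hb
  have hb' := congrArg Subtype.val hb'
  rw [hL'] at hb hb'
  show col (f b) = col (f b')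
  by_cases hpz : L.c (j + 1) b₁ = z
  · -- the face next to the 4-face
    have h3 : col (f β₁) = true :=
      (hz (j + 1) (f β₁) b₁ ((R.c_β₁ L e₁).1.trans hpz) hpz).trans h1
    have hcase' : ∀ b, L.c (j + 1) b = L.c (j + 1) b₂ → b ≠ b₂ → col b = true := by
      rcases hcase with h | h
      · rw [h3] at h
        exact absurd h (by decide)
      · exact h
    have fin : ∀ a : B', (if L.c k (f a) = L.c (j + 1) b₂ then L.c (j + 1) b₁ else L.c k (f a)) = z →
        col (f a) = true := by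
      intro a ha
      by_cases hc : L.c k (f a) = L.c (j + 1) b₂
      · have hk := L.cls _ _ _ _ hc
        subst hk
        exact hcase' _ hc (R.f_ne₂ a)
      · rw [if_neg hc] at ha
        have hk := L.cls _ _ _ _ (ha.trans hpz.symm)
        subst hk
        exact (hz (j + 1) (f a) b₁ ha hpz).trans h1
    rw [fin b hb, fin b' hb']
  · have fin : ∀ a : B', (if L.c k (f a) = L.c (j + 1) b₂ then L.c (j + 1) b₁ else L.c k (f a)) = z →
        L.c k (f a) = z := by
      intro a ha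
      by_cases hc : L.c k (f a) = L.c (j + 1) b₂
      · rw [if_pos hc] at ha
        exact absurd ha hpz
      · rwa [if_neg hc] at ha
    exact hz k (f b) (f b') (fin b hb) (fin b' hb')

end Vale.Agent.P039.Sk
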