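import Vale.Agent.P039.Sp.GraphA
import Vale.Agent.P039.Sk.Basic
import Mathlib.Data.Set.Card

/-! Edge colours of a bipartite cubic plane graph. -/

namespace Vale.Agent.P039.Sk

open Vale.Agent.P039
open Finset

/-- faces classes modulo three which increase across the edges, seen from the black vertices -/
structure Pot {V : Type*} (G : SimpleGraph V) (R : Rotation G) (c : V → Bool) where
  κ : R.Face → Fin 3
  hc : ∀ u v, G.Adj u v → c u ≠ c v
  card : ∀ v, ({d : G.Dart | d.fst = v}).ncard = 3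
  step : ∀ d : G.Dart, c d.fst = true → κ (R.faceOf d.symm) = κ (R.faceOf d) + 1

namespace Pot

variable {V : Type*} {G : SimpleGraph V} {R : Rotation G} {c : V → Bool} (P : Pot G R c)
include P

theorem flip {d : G.Dart} (h : c d.fst = true) : c d.snd = false := by
  have := P.hc _ _ d.adj
  rcases Bool.eq_false_or_eq_true (c d.snd) with h' | h'
  · exact absurd (h.trans h'.symm) this
  · exact h'

theorem flip' {d : G.Dart} (h : c d.fst = false) : c d.snd = true := by
  have := P.hc _ _ d.adj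
  rcases Bool.eq_false_or_eq_true (c d.snd) with h' | h'
  · exact h'
  · exact absurd (h.trans h'.symm) this

/-- the colour of a dart -/
def γ (d : G.Dart) : Fin 3 :=
  if c d.fst = true then P.κ (R.faceOf d) + 2 else P.κ (R.faceOf d.symm) + 2

theorem γ_black {d : G.Dart} (h : c d.fst = true) : P.γ d = P.κ (R.faceOf d) + 2 := by
  unfold γ; rw [if_pos h]

theorem γ_white {d : G.Dart} (h : c d.fst = false) : P.γ d = P.κ (R.faceOf d.symm) + 2 := by
  unfold γ; rw [if_neg (by rw [h]; decide)]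

theorem γ_symm (d : G.Dart) : P.γ d.symm = P.γ d := by
  rcases Bool.eq_false_or_eq_true (c d.fst) with h | h
  · rw [P.γ_black h, P.γ_white (d := d.symm) (P.flip h), SimpleGraph.Dart.symm_symm]
  · rw [P.γ_white h, P.γ_black (d := d.symm) (P.flip' h)]

theorem κ_black {d : G.Dart} (h : c d.fst = true) : P.κ (R.faceOf d) = P.γ d + 1 := by
  rw [P.γ_black h, f21]

theorem κ_white {d : G.Dart} (h : c d.fst = false) : P.κ (R.faceOf d) = P.γ d + 2 := by
  have h1 := P.step d.symm (P.flip' h)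
  rw [SimpleGraph.Dart.symm_symm] at h1
  rw [h1, P.γ_white h, f22]

theorem γ_rot_black {d : G.Dart} (h : c d.fst = true) : P.γ (R.rot d) = P.γ d + 1 := by
  have h0 : c (R.rot d).fst = true := by rw [R.fst_rot]; exact h
  have h2 := R.faceOf_rot_symm d.symm
  rw [SimpleGraph.Dart.symm_symm] at h2
  rw [P.γ_black h0, h2, P.γ_black h, P.step d h]
  generalize P.κ (R.faceOf d) = a
  revert a; decide

theorem γ_rot_white {d : G.Dart} (h : c d.fst = false) : P.γ (R.rot d) = P.γ d + 2 := by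
  have h0 : c (R.rot d).fst = false := by rw [R.fst_rot]; exact h
  have h2 := R.faceOf_rot_symm d.symm
  rw [SimpleGraph.Dart.symm_symm] at h2
  have h3 := P.κ_white h0
  rw [h2] at h3
  have h4 := P.γ_white h
  have h5 : P.κ (R.faceOf d.symm) = P.γ d + 1 := by rw [h4, f21]
  rw [h5] at h3
  generalize P.γ d = a at h3 ⊢
  generalize P.γ (R.rot d) = b at h3 ⊢
  revert a b; decide

theorem finite_darts (v : V) : ({d : G.Dart | d.fst = v}).Finite :=
  Set.finite_of_ncard_ne_zero (by rw [P.card v]; decide)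

theorem exists_dart (v : V) : ∃ d : G.Dart, d.fst = v := by
  have h : ({d : G.Dart | d.fst = v}).Nonempty := by
    rw [← Set.ncard_pos (P.finite_darts v), P.card v]; decide
  exact h

theorem exists_col (v : V) (i : Fin 3) : ∃ d : G.Dart, d.fst = v ∧ P.γ d = i := by
  obtain ⟨d, hd⟩ := P.exists_dart v
  have h1 : (R.rot d).fst = v := (R.fst_rot d).trans hd
  have h2 : (R.rot (R.rot d)).fst = v := (R.fst_rot _).trans h1
  rcases Bool.eq_false_or_eq_true (c v) with h | h
  · have g1 := P.γ_rot_black (d := d) (by rw [hd]; exact h)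
    have g2 := P.γ_rot_black (d := R.rot d) (by rw [h1]; exact h)
    have : i = P.γ d ∨ i = P.γ d + 1 ∨ i = P.γ d + 1 + 1 := by
      generalize P.γ d = a
      revert a i; decide
    rcases this with h' | h' | h'
    · exact ⟨d, hd, h'.symm⟩
    · exact ⟨_, h1, g1.trans h'.symm⟩
    · exact ⟨_, h2, by rw [g2, g1, h']⟩
  · have g1 := P.γ_rot_white (d := d) (by rw [hd]; exact h)
    have g2 := P.γ_rot_white (d := R.rot d) (by rw [h1]; exact h)
    have : i = P.γ d ∨ i = P.γ d + 2 ∨ i = P.γ d + 2 + 2 := by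
      generalize P.γ d = a
      revert a i; decide
    rcases this with h' | h' | h'
    · exact ⟨d, hd, h'.symm⟩
    · exact ⟨_, h1, g1.trans h'.symm⟩
    · exact ⟨_, h2, by rw [g2, g1, h']⟩

theorem dart_inj {d d' : G.Dart} (h : d.fst = d'.fst) (hg : P.γ d = P.γ d') : d = d' := by
  classical
  set s : Finset G.Dart := (P.finite_darts d.fst).toFinset with hs
  have hcard : s.card = 3 := by
    rw [hs, ← Set.ncard_eq_toFinset_card _ (P.finite_darts d.fst)]
    exact P.card _
  have himg : s.image P.γ = univ := by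
    ext i
    simp only [mem_image, mem_univ, iff_true]
    obtain ⟨e, he, hi⟩ := P.exists_col d.fst i
    exact ⟨e, by rw [hs, Set.Finite.mem_toFinset]; exact he, hi⟩
  have hinj : Set.InjOn P.γ s := by
    rw [← Finset.card_image_iff, himg, hcard]
    rfl
  apply hinj
  · rw [hs]; simp
  · rw [hs]; simp [h]
  · exact hg

/-- the dart of colour `i` at `v` -/
noncomputable def δ (v : V) (i : Fin 3) : G.Dart := (P.exists_col v i).choose

theorem δ_fst (v : V) (i : Fin 3) : (P.δ v i).fst = v := (P.exists_col v i).choose_spec.1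
theorem γ_δ (v : V) (i : Fin 3) : P.γ (P.δ v i) = i := (P.exists_col v i).choose_spec.2

theorem eq_δ {d : G.Dart} {v : V} {i : Fin 3} (h : d.fst = v) (hi : P.γ d = i) : d = P.δ v i :=
  P.dart_inj (h.trans (P.δ_fst v i).symm) (hi.trans (P.γ_δ v i).symm)

/-- the neighbour along the edge of colour `i` -/
noncomputable def nb (v : V) (i : Fin 3) : V := (P.δ v i).snd

theorem δ_symm (v : V) (i : Fin 3) : (P.δ v i).symm = P.δ (P.nb v i) i :=
  P.eq_δ rfl ((P.γ_symm _).trans (P.γ_δ v i))

theorem nb_nb (v : V) (i : Fin 3) : P.nb (P.nb v i) i = v := by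
  have h : P.nb (P.nb v i) i = (P.δ (P.nb v i) i).snd := rfl
  rw [h, ← P.δ_symm]
  exact P.δ_fst v i

theorem nb_adj (v : V) (i : Fin 3) : G.Adj v (P.nb v i) := by
  have h := (P.δ v i).adj
  rw [P.δ_fst] at h
  exact h

theorem exists_nb {u v : V} (h : G.Adj u v) : ∃ i, P.nb u i = v := by
  refine ⟨P.γ ⟨(u, v), h⟩, ?_⟩
  have h1 := P.eq_δ (d := ⟨(u, v), h⟩) (v := u) rfl rfl
  unfold nb
  rw [← h1]

theorem c_nb {v : V} (h : c v = true) (i : Fin 3) : c (P.nb v i) = false := by
  have h1 : c (P.δ v i).fst = true := by rw [P.δ_fst]; exact h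
  exact P.flip h1

theorem c_nb' {v : V} (h : c v = false) (i : Fin 3) : c (P.nb v i) = true := by
  have h1 : c (P.δ v i).fst = false := by rw [P.δ_fst]; exact h
  exact P.flip' h1

theorem fp_black {v : V} (h : c v = true) (j : Fin 3) :
    R.facePerm (P.δ v (j + 2)) = P.δ (P.nb v (j + 2)) (j + 1) := by
  rw [R.facePerm_apply, P.δ_symm]
  apply P.eq_δ
  · rw [R.fst_rot, P.δ_fst]
  · rw [P.γ_rot_white, P.γ_δ, f22]
    rw [P.δ_fst]; exact P.c_nb h _

theorem fp_white {v : V} (h : c v = false) (j : Fin 3) :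
    R.facePerm (P.δ v (j + 1)) = P.δ (P.nb v (j + 1)) (j + 2) := by
  rw [R.facePerm_apply, P.δ_symm]
  apply P.eq_δ
  · rw [R.fst_rot, P.δ_fst]
  · rw [P.γ_rot_black, P.γ_δ, f11]
    rw [P.δ_fst]; exact P.c_nb' h _

/-- the next black vertex on the face of class `j` -/
noncomputable def nx (j : Fin 3) (v : V) : V := P.nb (P.nb v (j + 2)) (j + 1)

theorem fp2 {v : V} (h : c v = true) (j : Fin 3) :
    R.facePerm (R.facePerm (P.δ v (j + 2))) = P.δ (P.nx j v) (j + 2) := by
  rw [P.fp_black h, P.fp_white (P.c_nb h _)]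
  rfl

theorem c_nx {v : V} (h : c v = true) (j : Fin 3) : c (P.nx j v) = true :=
  P.c_nb' (P.c_nb h _) _

/-- the face of class `j` at the black vertex `v` -/
noncomputable def cf (j : Fin 3) (v : V) : R.Face := R.faceOf (P.δ v (j + 2))

theorem κ_cf {v : V} (h : c v = true) (j : Fin 3) : P.κ (P.cf j v) = j := by
  unfold cf
  rw [P.κ_black (by rw [P.δ_fst]; exact h), P.γ_δ, f21]

theorem cf_nx {v : V} (h : c v = true) (j : Fin 3) : P.cf j (P.nx j v) = P.cf j v := by
  unfold cf
  rw [← P.fp2 h, R.faceOf_facePerm, R.faceOf_facePerm]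

theorem cf_surj (f : R.Face) : ∃ j v, c v = true ∧ P.cf j v = f := by
  obtain ⟨d, rfl⟩ := R.faceOf_surj f
  have key : ∀ d : G.Dart, c d.fst = true → ∃ j v, c v = true ∧ P.cf j v = R.faceOf d := by
    intro d h
    refine ⟨P.γ d + 1, d.fst, h, ?_⟩
    unfold cf
    have h1 : P.γ d + 1 + 2 = P.γ d := f12 _
    rw [h1, ← P.eq_δ rfl rfl]
  rcases Bool.eq_false_or_eq_true (c d.fst) with h | h
  · exact key d h
  · have h1 : c (R.facePerm d).fst = true := by
      rw [R.fst_facePerm]; exact P.flip' h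
    obtain ⟨j, v, hv, h2⟩ := key _ h1
    exact ⟨j, v, hv, h2.trans (R.faceOf_facePerm d)⟩

theorem orbit {v : V} (h : c v = true) (j : Fin 3) (m : ℕ) :
    ∃ x, c x = true ∧ (R.facePerm ^ (2 * m)) (P.δ v (j + 2)) = P.δ x (j + 2) ∧
      x = (P.nx j)^[m] v := by
  induction m with
  | zero => exact ⟨v, h, rfl, rfl⟩
  | succ m ih =>
    obtain ⟨x, hx, h1, h2⟩ := ih
    refine ⟨P.nx j x, P.c_nx hx j, ?_, ?_⟩
    · have : 2 * (m + 1) = 2 + 2 * m := by ring
      rw [this, pow_add, Equiv.Perm.mul_apply, h1, pow_two, Equiv.Perm.mul_apply, P.fp2 hx]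
    · rw [Function.iterate_succ_apply', ← h2]

theorem δ_inj {v v' : V} {i : Fin 3} (h : P.δ v i = P.δ v' i) : v = v' := by
  rw [← P.δ_fst v i, h, P.δ_fst]

theorem cf_exact [Fintype V] {v v' : V} (h : c v = true) (h' : c v' = true) {j : Fin 3}
    (hf : P.cf j v = P.cf j v') : ∃ m : ℕ, v' = (P.nx j)^[m] v := by
  have h1 : R.facePerm.SameCycle (P.δ v (j + 2)) (P.δ v' (j + 2)) := Quotient.exact hf
  obtain ⟨n, hn⟩ := h1.exists_nat_pow_eq
  rcases Nat.even_or_odd' n with ⟨m, hm | hm⟩
  · obtain ⟨x, hx, h2, h3⟩ := P.orbit h j m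
    rw [hm, h2] at hn
    exact ⟨m, by rw [← h3]; exact (P.δ_inj hn).symm⟩
  · exfalso
    obtain ⟨x, hx, h2, h3⟩ := P.orbit h j m
    rw [hm, pow_succ', Equiv.Perm.mul_apply, h2, P.fp_black hx] at hn
    have h4 := congrArg (fun d : G.Dart => c d.fst) hn
    simp only [P.δ_fst] at h4
    rw [P.c_nb hx, h'] at h4
    exact absurd h4 (by decide)

end Pot

end Vale.Agent.P039.Sk
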