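import Vale.Agent.P039.Sp.SPos
import Vale.Agent.P039.Defs
import Vale.Agent.P039.Sp.GraphB

/-! From plane graphs to webs. -/

namespace Vale.Agent.P039.Sk

open Vale.Agent.P039

theorem ncard_darts {V : Type*} (G : SimpleGraph V) (v : V) :
    ({d : G.Dart | d.fst = v}).ncard = (G.neighborSet v).ncard := by
  have h1 : G.neighborSet v = (fun d : G.Dart => d.snd) '' {d : G.Dart | d.fst = v} := by
    ext u
    constructor
    · intro h
      exact ⟨⟨(v, u), h⟩, rfl, rfl⟩
    · rintro ⟨d, hd, rfl⟩
      have h := d.adj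
      have hd' : d.fst = v := hd
      rw [hd'] at h
      exact h
  rw [h1, Set.InjOn.ncard_image]
  intro d hd e he h
  have hd' : d.fst = v := hd
  have he' : e.fst = v := he
  apply SimpleGraph.Dart.ext
  exact Prod.ext (hd'.trans he'.symm) h

theorem card_bdart {V : Type*} [Fintype V] (G : SimpleGraph V) (c : V → Bool)
    (hc : ∀ u v, G.Adj u v → c u ≠ c v) :
    Fintype.card (BDart G c) = Fintype.card G.edgeSet := by
  apply Fintype.card_of_bijective (f := fun d : BDart G c => edgeOf d.1)
  constructor
  · rintro ⟨d, hd⟩ ⟨e, he⟩ h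
    rcases (edgeOf_eq_iff d e).1 h with h' | h'
    · exact Subtype.ext h'
    · exfalso
      subst h'
      have hd' : c e.snd = true := hd
      exact hc _ _ e.adj (he.trans hd'.symm)
  · intro e
    obtain ⟨d, rfl⟩ := edgeOf_surj e
    rcases Bool.eq_false_or_eq_true (c d.fst) with h | h
    · exact ⟨⟨d, h⟩, rfl⟩
    · have h' : c d.symm.fst = true := by
        have := hc _ _ d.adj
        rcases Bool.eq_false_or_eq_true (c d.snd) with h' | h'
        · exact h'
        · exact absurd (h.trans h'.symm) this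
      exact ⟨⟨d.symm, h'⟩, edgeOf_symm d⟩

/-- a potential exists -/
theorem exists_pot {V : Type*} [Fintype V] (G : SimpleGraph V)
    (hcub : ∀ v, (G.neighborSet v).ncard = 3) (R : Rotation G) (hR : R.Spherical)
    (hconn : G.Connected) (c : V → Bool) (hc : ∀ u v, G.Adj u v → c u ≠ c v) :
    Nonempty (Pot G R c) := by
  have hcard : ∀ v, ({d : G.Dart | d.fst = v}).ncard = 3 := fun v =>
    (ncard_darts G v).trans (hcub v)
  have hE : Fintype.card V + Fintype.card R.Face = Fintype.card (BDart G c) + 2 := by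
    rw [card_bdart G c hc]
    have h := hR
    unfold Rotation.Spherical at h
    rw [Nat.card_eq_fintype_card, Nat.card_eq_fintype_card, Nat.card_eq_fintype_card] at h
    exact h
  obtain ⟨κ, hκ⟩ := exists_potential R c hconn.preconnected hconn.nonempty hE hc hcard
  exact ⟨⟨κ, hc, hcard, hκ⟩⟩

section Build

variable {V : Type*} {G : SimpleGraph V} {R : Rotation G} {c : V → Bool} (P : Pot G R c)

/-- the edges of colour `i` -/
noncomputable def Pot.eqv (i : Fin 3) : {v // c v = true} ≃ {v // ¬ c v = true} where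
  toFun b := ⟨P.nb b.1 i, by rw [P.c_nb b.2]; decide⟩
  invFun w := ⟨P.nb w.1 i, P.c_nb' (by simpa using w.2) i⟩
  left_inv b := Subtype.ext (P.nb_nb _ _)
  right_inv w := Subtype.ext (P.nb_nb _ _)

variable {B W F : Type} (EB : B ≃ {v // c v = true}) (EW : W ≃ {v // ¬ c v = true})
  (EF : R.Face ≃ F)

/-- the web of a potential -/
noncomputable def Pot.web : Web B W := ⟨fun i => EB.trans ((P.eqv i).trans EW.symm)⟩

theorem Pot.web_e (i : Fin 3) (b : B) : (EW ((P.web EB EW).e i b)).1 = P.nb (EB b).1 i := by
  show (EW (EW.symm (P.eqv i (EB b)))).1 = _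
  rw [Equiv.apply_symm_apply]
  rfl

theorem Pot.web_e_iff (i i' : Fin 3) (b b' : B) :
    (P.web EB EW).e i b = (P.web EB EW).e i' b' ↔ P.nb (EB b).1 i = P.nb (EB b').1 i' := by
  constructor
  · intro h
    rw [← P.web_e EB EW, ← P.web_e EB EW, h]
  · intro h
    apply EW.injective
    apply Subtype.ext
    rw [P.web_e EB EW, P.web_e EB EW, h]

theorem Pot.web_chain (j : Fin 3) (m : ℕ) : ∀ b b' : B, (EB b').1 = (P.nx j)^[m] (EB b).1 →
    Relation.EqvGen (fun x y => (P.web EB EW).e (j + 1) y = (P.web EB EW).e (j + 2) x) b b' := by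
  induction m with
  | zero =>
    intro b b' h
    have : b' = b := EB.injective (Subtype.ext h)
    rw [this]
    exact Relation.EqvGen.refl _
  | succ m ih =>
    intro b b' h
    rw [Function.iterate_succ_apply'] at h
    have hb : c ((P.nx j)^[m] (EB b).1) = true := by
      have : ∀ m : ℕ, c ((P.nx j)^[m] (EB b).1) = true := by
        intro m
        induction m with
        | zero => exact (EB b).2
        | succ m ih => rw [Function.iterate_succ_apply']; exact P.c_nx ih j
      exact this m
    have h1 : (EB (EB.symm ⟨_, hb⟩)).1 = (P.nx j)^[m] (EB b).1 := by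
      rw [Equiv.apply_symm_apply]
    refine Relation.EqvGen.trans _ _ _ (ih b _ h1) (Relation.EqvGen.rel _ _ ?_)
    rw [P.web_e_iff EB EW, h1, h]
    exact P.nb_nb _ _

/-- the faces -/
noncomputable def Pot.lab [Fintype V] : Lab (P.web EB EW) F where
  c j b := EF (P.cf j (EB b).1)
  step j b b' h := by
    rw [P.web_e_iff EB EW] at h
    have h1 : P.nx j (EB b).1 = (EB b').1 := by
      unfold Pot.nx
      rw [← h, P.nb_nb]
    rw [← h1, P.cf_nx (EB b).2]
  exact j b b' h := by
    obtain ⟨m, hm⟩ := P.cf_exact (EB b).2 (EB b').2 (EF.injective h)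
    exact P.web_chain EB EW j m b b' hm
  cls j j' b b' h := by
    have h1 := EF.injective h
    rw [← P.κ_cf (EB b).2 j, h1, P.κ_cf (EB b').2 j']
  surj v := by
    obtain ⟨j, u, hu, h⟩ := P.cf_surj (EF.symm v)
    refine ⟨j, EB.symm ⟨u, hu⟩, ?_⟩
    rw [Equiv.apply_symm_apply, h, Equiv.apply_symm_apply]

/-- the isomorphism -/
noncomputable def Pot.iso : (P.web EB EW).graph ≃g G where
  toEquiv := (Equiv.sumCongr EB EW).trans (Equiv.sumCompl (fun v => c v = true))
  map_rel_iff' := by
    intro x y
    have key : ∀ b w, G.Adj (EB b).1 (EW w).1 ↔ ∃ i, w = (P.web EB EW).e i b := by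
      intro b w
      constructor
      · intro h
        obtain ⟨i, hi⟩ := P.exists_nb h
        refine ⟨i, EW.injective (Subtype.ext ?_)⟩
        rw [P.web_e EB EW, hi]
      · rintro ⟨i, rfl⟩
        rw [P.web_e EB EW]
        exact P.nb_adj _ _
    rcases x with b | w <;> rcases y with b' | w'
    · constructor
      · intro h
        exact absurd ((EB b).2.trans (EB b').2.symm) (P.hc _ _ h)
      · intro h
        exfalso
        simp [Web.graph, SimpleGraph.fromRel_adj] at h
    · have : (P.web EB EW).graph.Adj (Sum.inl b) (Sum.inr w') ↔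
          ∃ i, w' = (P.web EB EW).e i b := by
        simp [Web.graph, SimpleGraph.fromRel_adj]
      rw [this]
      exact key b w'
    · have : (P.web EB EW).graph.Adj (Sum.inr w) (Sum.inl b') ↔
          ∃ i, w = (P.web EB EW).e i b' := by
        simp [Web.graph, SimpleGraph.fromRel_adj]
      rw [this, ← key b' w]
      exact G.adj_comm _ _
    · constructor
      · intro h
        have h1 : c (EW w).1 = false := by simpa using (EW w).2
        have h2 : c (EW w').1 = false := by simpa using (EW w').2
        exact absurd (h1.trans h2.symm) (P.hc _ _ h)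
      · intro h
        exfalso
        simp [Web.graph, SimpleGraph.fromRel_adj] at h

theorem Pot.iso_inl (b : B) : P.iso EB EW (Sum.inl b) = (EB b).1 := rfl
theorem Pot.iso_inr (w : W) : P.iso EB EW (Sum.inr w) = (EW w).1 := rfl

/-- the black darts -/
noncomputable def Pot.bdEquiv : BDart G c ≃ {v // c v = true} × Fin 3 where
  toFun d := (⟨d.1.fst, d.2⟩, P.γ d.1)
  invFun x := ⟨P.δ x.1.1 x.2, by rw [P.δ_fst]; exact x.1.2⟩
  left_inv d := Subtype.ext (P.eq_δ rfl rfl).symm
  right_inv x := Prod.ext (Subtype.ext (P.δ_fst _ _)) (P.γ_δ _ _)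

end Build

/-- a connected cubic bipartite plane graph comes from a web with Euler characteristic two -/
theorem exists_web {V : Type*} [Fintype V] [DecidableEq V] (G : SimpleGraph V)
    (hcub : ∀ v, (G.neighborSet v).ncard = 3) (hpl : IsPlane G) (hconn : G.Connected)
    (c : V → Bool) (hc : ∀ u v, G.Adj u v → c u ≠ c v) :
    ∃ (B W F : Type) (_ : Fintype B) (_ : Fintype W) (_ : Fintype F) (X : Web B W)
      (_ : Lab X F) (φ : X.graph ≃g G), Fintype.card F = Fintype.card B + 2 ∧
      (∀ b, c (φ (Sum.inl b)) = true) ∧ (∀ w, c (φ (Sum.inr w)) = false) := by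
  obtain ⟨R, hR⟩ := hpl
  obtain ⟨P⟩ := exists_pot G hcub R hR hconn c hc
  let EB := (Fintype.equivFin {v // c v = true}).symm
  let EW := (Fintype.equivFin {v // ¬ c v = true}).symm
  let EF := Fintype.equivFin R.Face
  refine ⟨_, _, _, inferInstance, inferInstance, inferInstance, P.web EB EW, P.lab EB EW EF,
    P.iso EB EW, ?_, ?_, ?_⟩
  · rw [Fintype.card_fin, Fintype.card_fin]
    have h := hR
    unfold Rotation.Spherical at h
    rw [Nat.card_eq_fintype_card, Nat.card_eq_fintype_card, Nat.card_eq_fintype_card,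
      ← card_bdart G c hc, Fintype.card_congr P.bdEquiv, Fintype.card_prod, Fintype.card_fin] at h
    have h2 : Fintype.card {v // c v = true} = Fintype.card {v // ¬ c v = true} :=
      Fintype.card_congr (P.eqv 0)
    have h3 : Fintype.card V = Fintype.card {v // c v = true} +
        Fintype.card {v // ¬ c v = true} := by
      rw [← Fintype.card_sum]
      exact (Fintype.card_congr (Equiv.sumCompl (fun v => c v = true))).symm
    omega
  · intro b
    exact (EB b).2
  · intro w
    have := (EW w).2
    rw [P.iso_inr]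
    simpa using this

theorem wconn_of {V : Type*} {G : SimpleGraph V} {c : V → Bool} {B W : Type} {X : Web B W}
    (φ : X.graph ≃g G) (hw : ∀ w, c (φ (Sum.inr w)) = false)
    (col : B → Bool) (σ : Bool) (T : Set V)
    (hT : ∀ b, φ (Sum.inl b) ∈ T → col b = σ) (hb : ∀ b, c (φ (Sum.inl b)) = true)
    (h : (G.induce {v | c v = true → v ∈ T}).Connected) : X.WConn col σ := by
  intro w w'
  set r : W → W → Prop := fun w w' => ∃ b i i', col b = σ ∧ X.e i b = w ∧ X.e i' b = w' with hr
  let Q : B ⊕ W → Prop :=
    Sum.elim (fun b => ∀ i, Relation.EqvGen r w (X.e i b)) (fun x => Relation.EqvGen r w x)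
  have hadj : ∀ b w, X.graph.Adj (Sum.inl b) (Sum.inr w) ↔ ∃ i, w = X.e i b := by
    intro b w
    simp [Web.graph, SimpleGraph.fromRel_adj]
  have hadj' : ∀ b w, X.graph.Adj (Sum.inr w) (Sum.inl b) ↔ ∃ i, w = X.e i b := by
    intro b w
    simp [Web.graph, SimpleGraph.fromRel_adj]
  have key : ∀ (x y : B ⊕ W), X.graph.Adj x y → (c (φ y) = true → φ y ∈ T) → Q x → Q y := by
    intro x y hxy hy hQ
    rcases x with b | x <;> rcases y with b' | y
    · exfalso
      simp [Web.graph, SimpleGraph.fromRel_adj] at hxy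
    · obtain ⟨i, rfl⟩ := (hadj b y).1 hxy
      exact hQ i
    · obtain ⟨i, rfl⟩ := (hadj' b' x).1 hxy
      intro i'
      have hQ' : Relation.EqvGen r w (X.e i b') := hQ
      exact hQ'.trans _ _ _ (Relation.EqvGen.rel _ _ ⟨b', i, i', hT b' (hy (hb b')), rfl, rfl⟩)
    · exfalso
      simp [Web.graph, SimpleGraph.fromRel_adj] at hxy
  have hwalk : ∀ (a b : {v | c v = true → v ∈ T})
      (_ : (G.induce {v | c v = true → v ∈ T}).Walk a b), Q (φ.symm a.1) → Q (φ.symm b.1) := by
    intro a b p
    induction p with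
    | nil => exact id
    | @cons a b' b hab p ih =>
      intro hQ
      apply ih
      have h1 : G.Adj a.1 b'.1 := hab
      apply key (φ.symm a.1) (φ.symm b'.1) (φ.symm.map_adj_iff.2 h1) _ hQ
      rw [RelIso.apply_symm_apply]
      exact b'.2
  have hmem : ∀ w : W, φ (Sum.inr w) ∈ {v | c v = true → v ∈ T} := by
    intro w h
    rw [hw w] at h
    exact absurd h (by decide)
  obtain ⟨p⟩ := h.preconnected ⟨_, hmem w⟩ ⟨_, hmem w'⟩
  have h1 := hwalk _ _ p
  simp only [RelIso.symm_apply_apply] at h1
  exact h1 (Relation.EqvGen.refl _)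

theorem ham_of_splitting {V : Type*} [Fintype V] [DecidableEq V] (G : SimpleGraph V)
    (hcub : ∀ v, (G.neighborSet v).ncard = 3) (hpl : IsPlane G)
    (c : V → Bool) (hc : ∀ u v, G.Adj u v → c u ≠ c v) (S : Set V)
    (h1 : (G.induce {v | c v = true → v ∈ S}).Connected)
    (h2 : (G.induce {v | c v = true → v ∉ S}).Connected) : G.IsHamiltonian := by
  classical
  -- a white vertex
  obtain ⟨w₀, hw₀⟩ : ∃ w, c w = false := by
    obtain ⟨v⟩ := h1.nonempty
    rcases Bool.eq_false_or_eq_true (c v.1) with h | h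
    · have hne : (G.neighborSet v.1).Nonempty := by
        apply Set.nonempty_of_ncard_ne_zero
        rw [hcub]; decide
      obtain ⟨u, hu⟩ := hne
      have h' := hc _ _ hu
      refine ⟨u, ?_⟩
      rcases Bool.eq_false_or_eq_true (c u) with h'' | h''
      · exact absurd (h.trans h''.symm) h'
      · exact h''
    · exact ⟨_, h⟩
  have hconn : G.Connected := by
    have : Nonempty V := ⟨w₀⟩
    have hr : ∀ u, G.Reachable u w₀ := by
      intro u
      by_cases hu : c u = true → u ∈ S
      · have h := h1.preconnected ⟨u, hu⟩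
          ⟨w₀, fun h => absurd (hw₀.symm.trans h) (by decide)⟩
        exact h.map (SimpleGraph.Embedding.induce _).toHom
      · have hu' : u ∉ S := fun h => hu (fun _ => h)
        have h := h2.preconnected ⟨u, fun _ => hu'⟩
          ⟨w₀, fun h => absurd (hw₀.symm.trans h) (by decide)⟩
        exact h.map (SimpleGraph.Embedding.induce _).toHom
    exact ⟨fun u v => (hr u).trans (hr v).symm⟩
  obtain ⟨B, W, F, _, _, _, X, L, φ, hcard, hb, hw⟩ := exists_web G hcub hpl hconn c hc
  have hN : 2 ≤ Fintype.card B := by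
    by_contra hlt
    have hsub : Subsingleton B := by
      rw [← Fintype.card_le_one_iff_subsingleton]; omega
    have h3 : (G.neighborSet w₀).ncard ≤ 1 := by
      rw [Set.ncard_le_one_iff_subsingleton]
      have hbl : ∀ u ∈ G.neighborSet w₀, ∃ b, φ (Sum.inl b) = u := by
        intro u hu
        have hu' := hc _ _ hu
        rcases hx : φ.symm u with b | w
        · exact ⟨b, by rw [← hx, RelIso.apply_symm_apply]⟩
        · exfalso
          have h4 := hw w
          rw [← hx, RelIso.apply_symm_apply] at h4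
          exact hu' (hw₀.trans h4.symm)
      intro u hu v hv
      obtain ⟨b, rfl⟩ := hbl u hu
      obtain ⟨b', rfl⟩ := hbl v hv
      rw [Subsingleton.elim b b']
    rw [hcub] at h3
    omega
  have hs : X.Split (fun b => decide (φ (Sum.inl b) ∈ S)) := by
    refine ⟨?_, ?_⟩
    · exact wconn_of φ hw _ true S (fun b h => by simpa using h) hb h1
    · exact wconn_of φ hw _ false {v | v ∉ S} (fun b h => by simpa using h) hb h2
  have hH := ham_of_split L hcard hN hs
  intro hV
  have hcV : Fintype.card (B ⊕ W) ≠ 1 := by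
    rw [Fintype.card_congr φ.toEquiv]; exact hV
  obtain ⟨a, p, hp⟩ := hH hcV
  exact ⟨φ a, p.map φ.toHom, hp.map φ.bijective⟩

end Vale.Agent.P039.Sk
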