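import Vale.Agent.P039.Duality
import Mathlib.Tactic.LinearCombination
import Mathlib.Tactic.Ring
import Mathlib.Tactic.Abel

/-! Duality modulo three for bipartite plane graphs. -/

namespace Vale.Agent.P039.Sk

open Vale.Agent.P039
open Finset

section LinAlg

variable {K ι κ : Type*} [Field K] [Fintype ι]

theorem gker_le_one (M : Matrix κ ι K) (s : ι → K)
    (h : ∀ z : ι → K, M.mulVec z = 0 → ∃ t : K, z = t • s) :
    Module.finrank K (LinearMap.ker M.mulVecLin) ≤ 1 := by
  classical
  have : LinearMap.ker M.mulVecLin ≤ Submodule.span K {s} := by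
    intro z hz
    rw [LinearMap.mem_ker, Matrix.mulVecLin_apply] at hz
    obtain ⟨t, ht⟩ := h z hz
    rw [Submodule.mem_span_singleton]
    exact ⟨t, ht.symm⟩
  calc _ ≤ Module.finrank K (Submodule.span K {s}) := Submodule.finrank_mono this
    _ ≤ 1 := by
      have := finrank_span_le_card (R := K) ({s} : Set (ι → K))
      simpa using this

theorem grank_ge [Fintype κ] (M : Matrix κ ι K) (s : ι → K)
    (h : ∀ z : ι → K, M.mulVec z = 0 → ∃ t : K, z = t • s) :
    Fintype.card ι ≤ M.rank + 1 := by
  have h1 := LinearMap.finrank_range_add_finrank_ker M.mulVecLin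
  have h2 := gker_le_one M s h
  rw [Module.finrank_fintype_fun_eq_card] at h1
  unfold Matrix.rank
  omega

end LinAlg

section Pot

variable {V : Type*} [Fintype V] {G : SimpleGraph V} (R : Rotation G) (c : V → Bool)

/-- darts with black tail -/
abbrev BDart (G : SimpleGraph V) (c : V → Bool) : Type _ := {d : G.Dart // c d.fst = true}

open Classical in
/-- difference across the edges -/
noncomputable def diffMat : Matrix (BDart G c) R.Face (ZMod 3) :=
  fun d f => (if R.faceOf d.1.symm = f then 1 else 0) - (if R.faceOf d.1 = f then 1 else 0)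

theorem diffMat_mulVec (z : R.Face → ZMod 3) (d : BDart G c) :
    (diffMat R c).mulVec z d = z (R.faceOf d.1.symm) - z (R.faceOf d.1) := by
  classical
  unfold diffMat Matrix.mulVec dotProduct
  simp [sub_mul, Finset.sum_sub_distrib]

open Classical in
/-- sums at the vertices -/
noncomputable def flowMat (G : SimpleGraph V) (c : V → Bool) : Matrix V (BDart G c) (ZMod 3) :=
  fun v d => (if d.1.fst = v then 1 else 0) + (if d.1.snd = v then 1 else 0)

open Classical in
theorem flowMat_mulVec (y : BDart G c → ZMod 3) (v : V) :
    (flowMat G c).mulVec y v = (∑ d : BDart G c, if d.1.fst = v then y d else 0) +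
      ∑ d : BDart G c, if d.1.snd = v then y d else 0 := by
  unfold flowMat Matrix.mulVec dotProduct
  simp [add_mul, Finset.sum_add_distrib]

theorem flowMat_transpose_mulVec (x : V → ZMod 3) (d : BDart G c) :
    (flowMat G c).transpose.mulVec x d = x d.1.fst + x d.1.snd := by
  classical
  change (∑ v, ((if d.1.fst = v then (1 : ZMod 3) else 0) +
    (if d.1.snd = v then 1 else 0)) * x v) = _
  simp [add_mul, Finset.sum_add_distrib]

/-- reversal of the darts, as a permutation -/
def symmEquiv (G : SimpleGraph V) : Equiv.Perm G.Dart :=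
  Function.Involutive.toPerm SimpleGraph.Dart.symm SimpleGraph.Dart.symm_involutive

theorem sum_bdart (F : G.Dart → ZMod 3) :
    (∑ d : BDart G c, F d.1) = ∑ d : G.Dart, if c d.fst = true then F d else 0 := by
  classical
  rw [← Finset.sum_filter]
  symm
  apply Finset.sum_subtype
  intro x
  simp

open Classical in
theorem sum_bdart_vertex (hc : ∀ u v, G.Adj u v → c u ≠ c v) (g : G.Dart → ZMod 3) (v : V) :
    ((∑ d : BDart G c, if d.1.fst = v then g d.1 else 0) +
      ∑ d : BDart G c, if d.1.snd = v then g d.1 else 0) =
    ∑ e : G.Dart, if e.fst = v then (if c e.fst = true then g e else g e.symm) else 0 := by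
  rw [sum_bdart c (fun d => if d.fst = v then g d else 0),
    sum_bdart c (fun d => if d.snd = v then g d else 0)]
  have h2 := Equiv.sum_comp (symmEquiv G)
    (fun d => if c d.fst = true then (if d.snd = v then g d else 0) else 0)
  rw [← h2, ← Finset.sum_add_distrib]
  apply Finset.sum_congr rfl
  intro e _
  have e1 : ((symmEquiv G) e).fst = e.snd := rfl
  have e2 : ((symmEquiv G) e).snd = e.fst := rfl
  have e3 : (symmEquiv G) e = e.symm := rfl
  rw [e1, e2, e3]
  have hne := hc _ _ e.adj
  by_cases hv : e.fst = v
  · simp only [hv, if_true]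
    rw [hv] at hne
    rcases Bool.eq_false_or_eq_true (c v) with h | h
    · have : c e.snd = false := by
        rcases Bool.eq_false_or_eq_true (c e.snd) with h' | h'
        · exact absurd (h.trans h'.symm) hne
        · exact h'
      simp [h, this]
    · have : c e.snd = true := by
        rcases Bool.eq_false_or_eq_true (c e.snd) with h' | h'
        · exact h'
        · exact absurd (h.trans h'.symm) hne
      simp [h, this]
  · simp [hv]

open Classical in
theorem sum_rot_zero (z : R.Face → ZMod 3) (v : V) :
    (∑ e : G.Dart, if e.fst = v then z (R.faceOf e.symm) - z (R.faceOf e) else 0) = 0 := by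
  have h1 : ∀ e : G.Dart, (if e.fst = v then z (R.faceOf e.symm) - z (R.faceOf e) else 0) =
      (if (R.rot e).fst = v then z (R.faceOf (R.rot e)) else 0) -
        (if e.fst = v then z (R.faceOf e) else 0) := by
    intro e
    have h := R.faceOf_rot_symm e.symm
    rw [SimpleGraph.Dart.symm_symm] at h
    rw [R.fst_rot, h]
    split_ifs <;> simp
  rw [Finset.sum_congr rfl (fun e _ => h1 e), Finset.sum_sub_distrib,
    Equiv.sum_comp R.rot (fun e => if e.fst = v then z (R.faceOf e) else 0), sub_self]

theorem flowMat_diffMat (hc : ∀ u v, G.Adj u v → c u ≠ c v) (z : R.Face → ZMod 3) :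
    (flowMat G c).mulVec ((diffMat R c).mulVec z) = 0 := by
  classical
  funext v
  rw [flowMat_mulVec]
  simp only [diffMat_mulVec, Pi.zero_apply]
  rw [sum_bdart_vertex c hc (fun d => z (R.faceOf d.symm) - z (R.faceOf d)) v]
  have hs := sum_rot_zero R z v
  rcases Bool.eq_false_or_eq_true (c v) with h | h
  · refine Eq.trans (Finset.sum_congr rfl ?_) hs
    intro e _
    by_cases hv : e.fst = v
    · simp [hv, h]
    · simp [hv]
  · have h1 : ∀ e : G.Dart, (if e.fst = v then (if c e.fst = true then
        z (R.faceOf e.symm) - z (R.faceOf e) else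
        z (R.faceOf e.symm.symm) - z (R.faceOf e.symm)) else 0) =
        -(if e.fst = v then z (R.faceOf e.symm) - z (R.faceOf e) else 0) := by
      intro e
      by_cases hv : e.fst = v
      · simp [hv, h]
      · simp [hv]
    rw [Finset.sum_congr rfl (fun e _ => h1 e), Finset.sum_neg_distrib, hs, neg_zero]

open Classical in
theorem flowMat_one (hc : ∀ u v, G.Adj u v → c u ≠ c v)
    (hcub : ∀ v, (univ.filter fun d : G.Dart => d.fst = v).card = 3) :
    (flowMat G c).mulVec (fun _ => 1) = 0 := by
  funext v
  rw [flowMat_mulVec, sum_bdart_vertex c hc (fun _ => 1) v]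
  have : (∑ e : G.Dart, if e.fst = v then (if c e.fst = true then (1 : ZMod 3) else 1) else 0) =
      ((univ.filter fun d : G.Dart => d.fst = v).card : ZMod 3) := by
    rw [Finset.card_filter]
    push_cast
    apply Finset.sum_congr rfl
    intro e _
    simp
  rw [this, hcub]
  rfl

theorem exists_potential (hG : G.Preconnected) (hne : Nonempty V)
    (hE : Fintype.card V + Fintype.card R.Face = Fintype.card (BDart G c) + 2)
    (hc : ∀ u v, G.Adj u v → c u ≠ c v)
    (hcub : ∀ v, ({d : G.Dart | d.fst = v}).ncard = 3) :
    ∃ κ : R.Face → ZMod 3, ∀ d : G.Dart, c d.fst = true →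
      κ (R.faceOf d.symm) = κ (R.faceOf d) + 1 := by
  classical
  have hcub' : ∀ v, (univ.filter fun d : G.Dart => d.fst = v).card = 3 := by
    intro v
    rw [← hcub v, ← Set.ncard_coe_finset]
    congr 1
    ext d
    simp
  -- rank of the difference matrix
  have h1 : Fintype.card R.Face ≤ (diffMat R c).rank + 1 := by
    apply grank_ge _ (fun _ => 1)
    intro z hz
    have hsym : ∀ d : G.Dart, z (R.faceOf d.symm) = z (R.faceOf d) := by
      intro d
      rcases Bool.eq_false_or_eq_true (c d.fst) with h | h
      · have h3 := congrFun hz ⟨d, h⟩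
        rw [diffMat_mulVec] at h3
        exact sub_eq_zero.1 h3
      · have h' : c d.symm.fst = true := by
          have := hc _ _ d.adj
          rcases Bool.eq_false_or_eq_true (c d.snd) with h' | h'
          · exact h'
          · exact absurd (h.trans h'.symm) this
        have h3 := congrFun hz ⟨d.symm, h'⟩
        rw [diffMat_mulVec] at h3
        have h4 := sub_eq_zero.1 h3
        rw [SimpleGraph.Dart.symm_symm] at h4
        exact h4.symm
    have hrot : ∀ d : G.Dart, z (R.faceOf (R.rot d)) = z (R.faceOf d) := by
      intro d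
      have := R.faceOf_rot_symm d.symm
      rw [SimpleGraph.Dart.symm_symm] at this
      rw [this, hsym]
    have hconst := const_of_invariant R hG (fun d => z (R.faceOf d)) hsym hrot
    by_cases hd : Nonempty G.Dart
    · obtain ⟨d₀⟩ := hd
      refine ⟨z (R.faceOf d₀), ?_⟩
      funext f
      obtain ⟨d, rfl⟩ := R.faceOf_surj f
      rw [Pi.smul_apply, smul_eq_mul, mul_one]
      exact hconst d d₀
    · refine ⟨0, ?_⟩
      funext f
      obtain ⟨d, -⟩ := R.faceOf_surj f
      exact absurd ⟨d⟩ hd
  have h2 : Fintype.card V ≤ (flowMat G c).transpose.rank + 1 := by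
    apply grank_ge _ (fun v => if c v = true then 1 else -1)
    intro x hx
    obtain ⟨v₀⟩ := hne
    have key : ∀ u v, G.Adj u v → x u = - x v := by
      intro u v huv
      rcases Bool.eq_false_or_eq_true (c u) with h | h
      · have h3 := congrFun hx ⟨⟨(u, v), huv⟩, h⟩
        rw [flowMat_transpose_mulVec] at h3
        exact eq_neg_of_add_eq_zero_left h3
      · have h' : c v = true := by
          have := hc _ _ huv
          rcases Bool.eq_false_or_eq_true (c v) with h' | h'
          · exact h'
          · exact absurd (h.trans h'.symm) this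
        have h3 := congrFun hx ⟨⟨(v, u), huv.symm⟩, h'⟩
        rw [flowMat_transpose_mulVec] at h3
        exact eq_neg_of_add_eq_zero_right h3
    set s : V → ZMod 3 := fun v => if c v = true then 1 else -1 with hs
    have skey : ∀ u v, G.Adj u v → s u = - s v := by
      intro u v huv
      have := hc _ _ huv
      simp only [hs]
      rcases Bool.eq_false_or_eq_true (c u) with h | h <;>
        rcases Bool.eq_false_or_eq_true (c v) with h' | h'
      · exact absurd (h.trans h'.symm) this
      · simp [h, h']
      · simp [h, h']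
      · exact absurd (h.trans h'.symm) this
    have ss : s v₀ * s v₀ = 1 := by
      simp only [hs]
      split_ifs <;> ring
    have hw : ∀ u v (_ : G.Walk u v), x u * s v = x v * s u := by
      intro u v w
      induction w with
      | nil => rfl
      | @cons u v' v h p ih =>
        rw [key _ _ h, skey _ _ h]
        linear_combination -ih
    refine ⟨x v₀ * s v₀, ?_⟩
    funext v
    obtain ⟨w⟩ := hG v v₀
    have h3 := hw _ _ w
    rw [Pi.smul_apply, smul_eq_mul]
    show x v = x v₀ * s v₀ * s v
    calc x v = x v * (s v₀ * s v₀) := by rw [ss, mul_one]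
      _ = (x v * s v₀) * s v₀ := by ring
      _ = (x v₀ * s v) * s v₀ := by rw [h3]
      _ = x v₀ * s v₀ * s v := by ring
  rw [Matrix.rank_transpose] at h2
  have h3 := LinearMap.finrank_range_add_finrank_ker (flowMat G c).mulVecLin
  rw [Module.finrank_fintype_fun_eq_card] at h3
  have h4 : LinearMap.range (diffMat R c).mulVecLin ≤ LinearMap.ker (flowMat G c).mulVecLin := by
    rintro _ ⟨z, rfl⟩
    rw [LinearMap.mem_ker]
    exact flowMat_diffMat R c hc z
  have h5 : Module.finrank (ZMod 3) (LinearMap.ker (flowMat G c).mulVecLin) ≤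
      Module.finrank (ZMod 3) (LinearMap.range (diffMat R c).mulVecLin) := by
    unfold Matrix.rank at h1 h2
    omega
  have h6 := Submodule.eq_of_le_of_finrank_le h4 h5
  have h7 : (fun _ => 1 : BDart G c → ZMod 3) ∈ LinearMap.range (diffMat R c).mulVecLin := by
    rw [h6, LinearMap.mem_ker]; exact flowMat_one c hc hcub'
  obtain ⟨κ, hκ⟩ := h7
  refine ⟨κ, fun d hd => ?_⟩
  have h8 := congrFun hκ ⟨d, hd⟩
  rw [Matrix.mulVecLin_apply, diffMat_mulVec] at h8
  have h9 : κ (R.faceOf d.symm) - κ (R.faceOf d) = 1 := h8
  rw [← h9]
  ring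

end Pot

end Vale.Agent.P039.Sk
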