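import Vale.Agent.P039.Sp.Defs
import Mathlib.LinearAlgebra.Dimension.Constructions
import Mathlib.LinearAlgebra.FiniteDimensional.Lemmas
import Mathlib.Data.Real.Basic
import Mathlib.Tactic

/-! Euler's inequality. -/

namespace Vale.Agent.P039.Sk

variable {B W V : Type}

open scoped Classical in
/-- Extension by zero. -/
noncomputable def lemDExt (P : Finset V) (f : P → ℝ) (v : V) : ℝ := if h : v ∈ P then f ⟨v, h⟩ else 0

theorem lemDExt_of_mem {P : Finset V} (f : P → ℝ) {v : V} (h : v ∈ P) : lemDExt P f v = f ⟨v, h⟩ := by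
  unfold lemDExt
  rw [dif_pos h]

theorem lemDExt_of_notMem {P : Finset V} (f : P → ℝ) {v : V} (h : v ∉ P) : lemDExt P f v = 0 := by
  unfold lemDExt
  rw [dif_neg h]

theorem lemDExt_add {P : Finset V} (f g : P → ℝ) (v : V) :
    lemDExt P (f + g) v = lemDExt P f v + lemDExt P g v := by
  by_cases h : v ∈ P
  · rw [lemDExt_of_mem _ h, lemDExt_of_mem _ h, lemDExt_of_mem _ h]; rfl
  · rw [lemDExt_of_notMem _ h, lemDExt_of_notMem _ h, lemDExt_of_notMem _ h, add_zero]

theorem lemDExt_smul {P : Finset V} (a : ℝ) (f : P → ℝ) (v : V) :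
    lemDExt P (a • f) v = a * lemDExt P f v := by
  by_cases h : v ∈ P
  · rw [lemDExt_of_mem _ h, lemDExt_of_mem _ h]; rfl
  · rw [lemDExt_of_notMem _ h, lemDExt_of_notMem _ h, mul_zero]

/-- The linear map. -/
noncomputable def lemDPsi (X : Web B W) (c : Fin 3 → B → V) (P : Finset V) (F : Finset B) :
    ((P → ℝ) × (F → ℝ) × (W → ℝ)) →ₗ[ℝ] (Fin 3 × F → ℝ) where
  toFun x := fun y => (lemDExt P x.1 (c (y.1 + 2) y.2) - lemDExt P x.1 (c (y.1 + 1) y.2))
    + (x.2.1 y.2 + x.2.2 (X.e y.1 y.2))
  map_add' x y := by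
    funext z
    show (lemDExt P (x.1 + y.1) _ - lemDExt P (x.1 + y.1) _) + ((x.2.1 z.2 + y.2.1 z.2) + (x.2.2 _ + y.2.2 _)) =
      ((lemDExt P x.1 _ - lemDExt P x.1 _) + (x.2.1 z.2 + x.2.2 _)) +
      ((lemDExt P y.1 _ - lemDExt P y.1 _) + (y.2.1 z.2 + y.2.2 _))
    rw [lemDExt_add, lemDExt_add]
    ring
  map_smul' a x := by
    funext z
    show (lemDExt P (a • x.1) _ - lemDExt P (a • x.1) _) + ((a * x.2.1 z.2) + (a * x.2.2 _)) =
      a * ((lemDExt P x.1 _ - lemDExt P x.1 _) + (x.2.1 z.2 + x.2.2 _))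
    rw [lemDExt_smul, lemDExt_smul]
    ring

theorem lemD_fin3 (i k : Fin 3) : k = i ∨ k = i + 1 ∨ k = i + 2 := by
  fin_cases i <;> fin_cases k <;> decide

section Kernel

variable [Fintype B] [Fintype W] (X : Web B W) (c : Fin 3 → B → V)
    (step : ∀ j b b', X.e (j + 1) b' = X.e (j + 2) b → c j b' = c j b)

omit [Fintype B] [Fintype W] in
include step in
/-- corners at a white vertex -/
theorem lemD_corner1 (i : Fin 3) (w : W) :
    c (i + 2) ((X.e i).symm w) = c (i + 2) ((X.e (i + 1)).symm w) := by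
  apply step (i + 2)
  have h1 : i + 2 + 1 = i := by fin_cases i <;> rfl
  have h2 : i + 2 + 2 = i + 1 := by fin_cases i <;> rfl
  rw [h1, h2, Equiv.apply_symm_apply, Equiv.apply_symm_apply]

include step in
theorem lemD_corner_eq (φ : V → ℝ) (w : W) :
    ∑ i : Fin 3, (φ (c (i + 2) ((X.e i).symm w)) - φ (c (i + 1) ((X.e i).symm w))) = 0 := by
  rw [Finset.sum_sub_distrib, sub_eq_zero]
  rw [Finset.sum_congr rfl fun i _ => congrArg φ (lemD_corner1 X c step i w)]
  rw [← Equiv.sum_comp (Equiv.addRight (1 : Fin 3)) fun i => φ (c (i + 1) ((X.e i).symm w))]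
  refine Finset.sum_congr rfl fun i _ => ?_
  have h : i + 2 = Equiv.addRight (1 : Fin 3) i + 1 := by
    rw [Equiv.coe_addRight]
    fin_cases i <;> rfl
  rw [h]
  rfl

include step in
/-- The two parts are orthogonal. -/
theorem lemD_orth (P : Finset V) (F : Finset B) (hP : ∀ k b, c k b ∈ P → b ∈ F)
    (f : P → ℝ) (α : F → ℝ) (β : W → ℝ)
    (h : ∀ (i : Fin 3) (b : F), (lemDExt P f (c (i + 2) b) - lemDExt P f (c (i + 1) b)) + (α b + β (X.e i b)) = 0) :
    ∀ (i : Fin 3) (b : F), lemDExt P f (c (i + 2) b) = lemDExt P f (c (i + 1) b) := by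
  set D : Fin 3 → B → ℝ := fun i b => lemDExt P f (c (i + 2) b) - lemDExt P f (c (i + 1) b) with hD
  have hD0 : ∀ i b, b ∉ F → D i b = 0 := by
    intro i b hb
    have h1 : c (i + 2) b ∉ P := fun h' => hb (hP _ _ h')
    have h2 : c (i + 1) b ∉ P := fun h' => hb (hP _ _ h')
    show lemDExt P f (c (i + 2) b) - lemDExt P f (c (i + 1) b) = 0
    rw [lemDExt_of_notMem _ h1, lemDExt_of_notMem _ h2, sub_zero]
  -- first sum
  have hs1 : ∀ b : B, ∑ i : Fin 3, D i b = 0 := by
    intro b
    show ∑ i : Fin 3, (lemDExt P f (c (i + 2) b) - lemDExt P f (c (i + 1) b)) = 0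
    rw [Finset.sum_sub_distrib, sub_eq_zero]
    rw [← Equiv.sum_comp (Equiv.addRight (1 : Fin 3)) fun i => lemDExt P f (c (i + 1) b)]
    refine Finset.sum_congr rfl fun i _ => ?_
    have h : i + 2 = Equiv.addRight (1 : Fin 3) i + 1 := by
      rw [Equiv.coe_addRight]
      fin_cases i <;> rfl
    rw [h]
  -- second sum
  have hs2 : ∑ i : Fin 3, ∑ b : B, D i b * β (X.e i b) = 0 := by
    have : ∀ i : Fin 3, ∑ b : B, D i b * β (X.e i b) = ∑ w : W, D i ((X.e i).symm w) * β w := by
      intro i
      rw [← Equiv.sum_comp (X.e i).symm fun b => D i b * β (X.e i b)]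
      refine Finset.sum_congr rfl fun w _ => ?_
      rw [Equiv.apply_symm_apply]
    rw [Finset.sum_congr rfl fun i _ => this i, Finset.sum_comm]
    apply Finset.sum_eq_zero
    intro w _
    rw [← Finset.sum_mul]
    have := lemD_corner_eq X c step (lemDExt P f) w
    show (∑ i : Fin 3, (lemDExt P f (c (i + 2) ((X.e i).symm w)) - lemDExt P f (c (i + 1) ((X.e i).symm w)))) * β w = 0
    rw [this, zero_mul]
  have hs3 : ∑ i : Fin 3, ∑ b : B, D i b * D i b = 0 := by
    classical
    have e1 : ∀ (i : Fin 3) (b : B), D i b * D i b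
        = - (D i b * (if hb : b ∈ F then α ⟨b, hb⟩ else 0)) - D i b * β (X.e i b) := by
      intro i b
      by_cases hb : b ∈ F
      · rw [dif_pos hb]
        have h1 := h i ⟨b, hb⟩
        have h2 : D i b = - (α ⟨b, hb⟩ + β (X.e i b)) := by
          have : D i b + (α ⟨b, hb⟩ + β (X.e i b)) = 0 := h1
          linarith
        have h3 : D i b * D i b = D i b * (- (α ⟨b, hb⟩ + β (X.e i b))) := by
          rw [← h2]
        rw [h3]
        ring
      · rw [hD0 i b hb]
        ring
    rw [Finset.sum_congr rfl fun i _ => Finset.sum_congr rfl fun b _ => e1 i b]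
    rw [Finset.sum_congr rfl fun i _ => Finset.sum_sub_distrib _ _, Finset.sum_sub_distrib, hs2, sub_zero,
      Finset.sum_comm]
    apply Finset.sum_eq_zero
    intro b _
    rw [Finset.sum_neg_distrib, ← Finset.sum_mul, hs1, zero_mul, neg_zero]
  intro i b
  have h1 : ∑ b : B, D i b * D i b = 0 :=
    (Finset.sum_eq_zero_iff_of_nonneg fun i _ => Finset.sum_nonneg fun b _ => mul_self_nonneg _).1 hs3 i
      (Finset.mem_univ _)
  have h2 : D i b * D i b = 0 :=
    (Finset.sum_eq_zero_iff_of_nonneg fun b _ => mul_self_nonneg _).1 h1 b (Finset.mem_univ _)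
  have h3 : D i b = 0 := mul_self_eq_zero.1 h2
  exact sub_eq_zero.1 h3

end Kernel

/-- Let the white vertices be connected through the black vertices of `F`, and let `P` be a set of
faces, not all of them, which have only black vertices of `F`. Then `|P| + |W| ≤ 2 |F| + 1`.
(`c` need not be exact: faces may be merged.) -/
theorem lemD [Fintype B] [Fintype W] (X : Web B W) (c : Fin 3 → B → V)
    (step : ∀ j b b', X.e (j + 1) b' = X.e (j + 2) b → c j b' = c j b)
    (surj : ∀ v, ∃ j b, c j b = v) (F : Finset B)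
    (hF : ∀ w w' : W, Relation.EqvGen
      (fun w w' => ∃ b ∈ F, ∃ i i', X.e i b = w ∧ X.e i' b = w') w w')
    (P : Finset V) (hP : ∀ k b, c k b ∈ P → b ∈ F) (hP' : ∃ v, v ∉ P) :
    P.card + Fintype.card W ≤ 2 * F.card + 1 := by
  obtain ⟨v0, hv0⟩ := hP'
  obtain ⟨j0, b0, _⟩ := surj v0
  set w0 : W := X.e 0 b0 with hw0
  -- all corners of a vertex of `F` have the same value
  have key : ∀ x : (P → ℝ) × (F → ℝ) × (W → ℝ), lemDPsi X c P F x = 0 → x.2.2 w0 = 0 → x = 0 := by
    rintro ⟨f, α, β⟩ hx hβ0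
    have h : ∀ (i : Fin 3) (b : F), (lemDExt P f (c (i + 2) b) - lemDExt P f (c (i + 1) b))
        + (α b + β (X.e i b)) = 0 := fun i b => congrFun hx (i, b)
    have hD := lemD_orth X c step P F hP f α β h
    have hαβ : ∀ (i : Fin 3) (b : F), α b + β (X.e i b) = 0 := by
      intro i b
      have h1 := h i b
      rw [hD i b, sub_self, zero_add] at h1
      exact h1
    -- `β` is constant
    have hβ : ∀ w w', Relation.EqvGen
        (fun w w' => ∃ b ∈ F, ∃ i i', X.e i b = w ∧ X.e i' b = w') w w' → β w = β w' := by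
      intro w w' hw
      induction hw with
      | rel x y hxy =>
        obtain ⟨b, hb, i, i', rfl, rfl⟩ := hxy
        have h1 := hαβ i ⟨b, hb⟩
        have h2 := hαβ i' ⟨b, hb⟩
        have h1' : α ⟨b, hb⟩ + β (X.e i b) = 0 := h1
        have h2' : α ⟨b, hb⟩ + β (X.e i' b) = 0 := h2
        linarith
      | refl x => rfl
      | symm x y _ ih => exact ih.symm
      | trans x y z _ _ ih1 ih2 => exact ih1.trans ih2
    have hβz : β = 0 := by
      funext w
      rw [hβ w w0 (hF w w0)]
      exact hβ0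
    have hαz : α = 0 := by
      funext b
      have h1 := hαβ 0 b
      rw [hβz] at h1
      simpa using h1
    have hcorner : ∀ (b : B), b ∈ F → ∀ k k' : Fin 3, lemDExt P f (c k b) = lemDExt P f (c k' b) := by
      intro b hb
      have h0 := hD 0 ⟨b, hb⟩
      have h1 := hD 1 ⟨b, hb⟩
      have h2 := hD 2 ⟨b, hb⟩
      have e0 : lemDExt P f (c 2 b) = lemDExt P f (c 1 b) := h0
      have e1 : lemDExt P f (c 0 b) = lemDExt P f (c 2 b) := h1
      have e2 : lemDExt P f (c 1 b) = lemDExt P f (c 0 b) := h2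
      intro k k'
      fin_cases k <;> fin_cases k' <;> simp [e0, e1]
    -- neighbours of a common white vertex
    have hnb : ∀ b b' : B, b ∈ F → b' ∈ F → ∀ i i', X.e i b = X.e i' b' →
        lemDExt P f (c 0 b) = lemDExt P f (c 0 b') := by
      intro b b' hb hb' i i' hii
      rcases lemD_fin3 i i' with h1 | h1 | h1
      · subst h1
        rw [(X.e i').injective hii]
      · subst h1
        have h2 := lemD_corner1 X c step i (X.e i b)
        rw [Equiv.symm_apply_apply, hii, Equiv.symm_apply_apply] at h2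
        rw [hcorner b hb 0 (i + 2), h2, hcorner b' hb' (i + 2) 0]
      · subst h1
        have h2 := lemD_corner1 X c step (i + 2) (X.e (i + 2) b')
        have h3 : i + 2 + 1 = i := by fin_cases i <;> rfl
        rw [h3, Equiv.symm_apply_apply, ← hii, Equiv.symm_apply_apply] at h2
        rw [hcorner b hb 0 (i + 2 + 2), ← h2, hcorner b' hb' (i + 2 + 2) 0]
    have hf : f = 0 := by
      funext v
      obtain ⟨j, b, hjb⟩ := surj v
      have hbF : b ∈ F := hP j b (by rw [hjb]; exact v.2)
      have hfv : f v = lemDExt P f (c j b) := by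
        rw [hjb, lemDExt_of_mem f v.2]
      show f v = 0
      rw [hfv, hcorner b hbF j 0]
      by_contra hne
      set κ := lemDExt P f (c 0 b) with hκ
      -- every white vertex has a neighbour in `F` with value `κ`, all with value `κ`
      have hQ : ∀ w w', Relation.EqvGen
          (fun w w' => ∃ b ∈ F, ∃ i i', X.e i b = w ∧ X.e i' b = w') w w' →
          ((∃ b' ∈ F, ∃ i, X.e i b' = w ∧ lemDExt P f (c 0 b') = κ) ↔
            (∃ b' ∈ F, ∃ i, X.e i b' = w' ∧ lemDExt P f (c 0 b') = κ)) := by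
        intro w w' hw
        induction hw with
        | rel x y hxy =>
          obtain ⟨b1, hb1, i, i', hx1, hy1⟩ := hxy
          constructor
          · rintro ⟨b2, hb2, i2, h2, h3⟩
            refine ⟨b1, hb1, i', hy1, ?_⟩
            rw [← h3]
            exact hnb b1 b2 hb1 hb2 i i2 (hx1.trans h2.symm)
          · rintro ⟨b2, hb2, i2, h2, h3⟩
            refine ⟨b1, hb1, i, hx1, ?_⟩
            rw [← h3]
            exact hnb b1 b2 hb1 hb2 i' i2 (hy1.trans h2.symm)
        | refl x => exact Iff.rfl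
        | symm x y _ ih => exact ih.symm
        | trans x y z _ _ ih1 ih2 => exact ih1.trans ih2
      have hall : ∀ w, ∃ b' ∈ F, ∃ i, X.e i b' = w ∧ lemDExt P f (c 0 b') = κ := by
        intro w
        exact (hQ (X.e 0 b) w (hF _ _)).1 ⟨b, hbF, 0, rfl, rfl⟩
      have hin : ∀ b' ∈ F, lemDExt P f (c 0 b') = κ → ∀ k, c k b' ∈ P := by
        intro b' hb' h1 k
        by_contra hk
        have h2 := hcorner b' hb' 0 k
        rw [lemDExt_of_notMem f hk, h1] at h2
        exact hne h2
      have hallF : ∀ b', b' ∈ F := by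
        intro b'
        obtain ⟨b2, hb2, i, h1, h2⟩ := hall (X.e 0 b')
        rcases lemD_fin3 i 0 with h3 | h3 | h3
        · rw [← h3] at h1
          rw [← (X.e 0).injective h1]
          exact hb2
        · apply hP (i + 2) b'
          have h4 := lemD_corner1 X c step i (X.e i b2)
          rw [Equiv.symm_apply_apply, h1, ← h3, Equiv.symm_apply_apply] at h4
          rw [← h4]
          exact hin b2 hb2 h2 _
        · have h4 := lemD_corner1 X c step (i + 2) (X.e 0 b')
          have h5 : i + 2 + 1 = i := by fin_cases i <;> rfl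
          rw [h5, ← h3, Equiv.symm_apply_apply, ← h1, Equiv.symm_apply_apply] at h4
          apply hP (0 + 2) b'
          rw [h4]
          exact hin b2 hb2 h2 _
      have hκb : ∀ b', lemDExt P f (c 0 b') = κ := by
        intro b'
        obtain ⟨b2, hb2, i, h1, h2⟩ := hall (X.e 0 b')
        rw [← h2]
        exact hnb b' b2 (hallF b') hb2 0 i h1.symm
      obtain ⟨j1, b1, h1⟩ := surj v0
      apply hv0
      rw [← h1]
      exact hin b1 (hallF b1) (hκb b1) j1
    rw [hf, hαz, hβz]
    rfl
  -- dimension count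
  have hker : Module.finrank ℝ (LinearMap.ker (lemDPsi X c P F)) ≤ 1 := by
    let φ : LinearMap.ker (lemDPsi X c P F) →ₗ[ℝ] ℝ :=
      (LinearMap.proj w0).comp ((LinearMap.snd ℝ (F → ℝ) (W → ℝ)).comp
        ((LinearMap.snd ℝ (P → ℝ) ((F → ℝ) × (W → ℝ))).comp (LinearMap.ker (lemDPsi X c P F)).subtype))
    have hφ : Function.Injective φ := by
      rw [injective_iff_map_eq_zero]
      intro x hx
      apply Subtype.ext
      exact key x.1 (LinearMap.mem_ker.1 x.2) hx
    have := LinearMap.finrank_le_finrank_of_injective hφ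
    rwa [Module.finrank_self] at this
  have h1 := LinearMap.finrank_range_add_finrank_ker (lemDPsi X c P F)
  have h2 : Module.finrank ℝ (LinearMap.range (lemDPsi X c P F)) ≤ 3 * F.card := by
    refine (Submodule.finrank_le _).trans ?_
    rw [Module.finrank_fintype_fun_eq_card, Fintype.card_prod, Fintype.card_fin, Fintype.card_coe]
  have h3 : Module.finrank ℝ ((P → ℝ) × (F → ℝ) × (W → ℝ)) = P.card + (F.card + Fintype.card W) := by
    rw [Module.finrank_prod, Module.finrank_prod, Module.finrank_fintype_fun_eq_card,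
      Module.finrank_fintype_fun_eq_card, Module.finrank_fintype_fun_eq_card, Fintype.card_coe,
      Fintype.card_coe]
  rw [h3] at h1
  omega

/-- Euler's inequality -/
theorem euler_le [Fintype B] [Fintype W] [Fintype V] (X : Web B W) (c : Fin 3 → B → V)
    (step : ∀ j b b', X.e (j + 1) b' = X.e (j + 2) b → c j b' = c j b)
    (surj : ∀ v, ∃ j b, c j b = v) {col : B → Bool} {σ : Bool} (h : X.WConn col σ) :
    Fintype.card V ≤ Fintype.card B + 2 := by
  classical
  by_cases hV : Nonempty V
  · obtain ⟨v0⟩ := hV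
    have hmono : ∀ w w' : W, Relation.EqvGen
        (fun w w' => ∃ b i i', col b = σ ∧ X.e i b = w ∧ X.e i' b = w') w w' →
        Relation.EqvGen
        (fun w w' => ∃ b ∈ (Finset.univ : Finset B), ∃ i i', X.e i b = w ∧ X.e i' b = w') w w' := by
      intro w w' hw
      induction hw with
      | rel x y hxy =>
        obtain ⟨b, i, i', _, h2, h3⟩ := hxy
        exact Relation.EqvGen.rel _ _ ⟨b, Finset.mem_univ _, i, i', h2, h3⟩
      | refl x => exact Relation.EqvGen.refl _
      | symm x y _ ih => exact ih.symm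
      | trans x y z _ _ ih1 ih2 => exact ih1.trans _ _ _ ih2
    have h1 := lemD X c step surj Finset.univ (fun w w' => hmono w w' (h w w'))
      (Finset.univ.erase v0) (fun _ _ _ => Finset.mem_univ _) ⟨v0, Finset.notMem_erase _ _⟩
    rw [Finset.card_erase_of_mem (Finset.mem_univ _), Finset.card_univ, Finset.card_univ] at h1
    have h2 : Fintype.card W = Fintype.card B := (Fintype.card_congr (X.e 0)).symm
    omega
  · rw [not_nonempty_iff] at hV
    rw [Fintype.card_eq_zero]
    omega

end Vale.Agent.P039.Sk
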