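import Vale.Agent.P039.Sp.Defs

/-! Reversing the orientation. -/

namespace Vale.Agent.P039.Sk

variable {B W V B' W' : Type}

theorem Web.rev_rev (X : Web B W) : X.rev.rev = X := by
  cases X with
  | mk e =>
    unfold Web.rev
    congr 1
    funext i
    simp only [neg_neg]

variable {X : Web B W}

theorem rev_e0 (i : Fin 3) (b : B) : X.rev.e i b = X.e (-i) b := rfl

theorem rev_e1 (j : Fin 3) (b : B) : X.rev.e (j + 1) b = X.e (-j + 2) b := by
  rw [rev_e0, dual_n1]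

theorem rev_e2 (j : Fin 3) (b : B) : X.rev.e (j + 2) b = X.e (-j + 1) b := by
  rw [rev_e0, dual_n2]

theorem Web.rev_e (X : Web B W) (j : Fin 3) (b : B) : X.rev.e (-j) b = X.e j b ∧
    X.rev.e (-j + 1) b = X.e (j + 2) b ∧ X.rev.e (-j + 2) b = X.e (j + 1) b := by
  refine ⟨?_, ?_, ?_⟩
  · rw [rev_e0, neg_neg]
  · rw [rev_e0, dual_m1]
  · rw [rev_e0, dual_m2]

def Lab.rev (L : Lab X V) : Lab X.rev V where
  c j b := L.c (-j) b
  step := by
    intro j b b' h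
    rw [rev_e1, rev_e2] at h
    exact (L.step (-j) b' b h.symm).symm
  exact := by
    intro j b b' h
    exact dual_eqvGen (S := fun x y => X.rev.e (j + 1) y = X.rev.e (j + 2) x) id
      (fun x y hxy => Or.inr (by
        rw [rev_e1, rev_e2]
        exact hxy.symm)) (L.exact _ _ _ h)
  cls := by
    intro j j' b b' h
    exact neg_injective (L.cls _ _ _ _ h)
  surj := by
    intro v
    obtain ⟨j, b, hb⟩ := L.surj v
    refine ⟨-j, b, ?_⟩
    rw [neg_neg, hb]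

theorem rev_split {col : B → Bool} (h : X.Split col) : X.rev.Split col := by
  have key : ∀ σ, X.WConn col σ → X.rev.WConn col σ := by
    intro σ H w w'
    refine dual_eqvGen id (fun x y hxy => Or.inl ?_) (H w w')
    obtain ⟨b, i, i', h1, h2, h3⟩ := hxy
    refine ⟨b, -i, -i', h1, ?_, ?_⟩
    · rw [rev_e0, neg_neg]; exact h2
    · rw [rev_e0, neg_neg]; exact h3
  exact ⟨key true h.t, key false h.f⟩

theorem rev_mono (L : Lab X V) {col : B → Bool} {v : V} (h : L.Mono col v) :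
    L.rev.Mono col v := fun k b b' h1 h2 => h (-k) b b' h1 h2

theorem Sq4.rev {j : Fin 3} {b₁ b₂ : B} (Q : Sq4 X j b₁ b₂) : Sq4 X.rev (-j) b₁ b₂ where
  ne := Q.ne
  face := by
    rw [(X.rev_e j b₂).2.1, (X.rev_e j b₁).2.2]
    exact Q.face'.symm
  face' := by
    rw [(X.rev_e j b₁).2.1, (X.rev_e j b₂).2.2]
    exact Q.face.symm
  n11 := by
    rw [(X.rev_e j b₁).1, (X.rev_e j b₁).2.2, Q.face']
    exact Q.n12
  n12 := by
    rw [(X.rev_e j b₁).1, (X.rev_e j b₂).2.2, Q.face]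
    exact Q.n11
  n21 := by
    rw [(X.rev_e j b₂).1, (X.rev_e j b₁).2.2, Q.face']
    exact Q.n22
  n22 := by
    rw [(X.rev_e j b₂).1, (X.rev_e j b₂).2.2, Q.face]
    exact Q.n21

theorem Lab.rev_c0 (L : Lab X V) (j : Fin 3) (b : B) : L.rev.c j b = L.c (-j) b := rfl

theorem Lab.rev_c (L : Lab X V) (j : Fin 3) (b : B) : L.rev.c (-j) b = L.c j b ∧
    L.rev.c (-j + 1) b = L.c (j + 2) b ∧ L.rev.c (-j + 2) b = L.c (j + 1) b := by
  refine ⟨?_, ?_, ?_⟩
  · rw [L.rev_c0, neg_neg]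
  · rw [L.rev_c0, dual_m1]
  · rw [L.rev_c0, dual_m2]

theorem rev_forall {P : Fin 3 → B → Prop} : (∀ i b, P i b) ↔ ∀ k b, P (-k) b := by
  refine ⟨fun h k b => h _ _, fun h i b => ?_⟩
  have h1 := h (-i) b
  rwa [neg_neg] at h1

theorem rev_valid_at (L : Lab X V) (h : V → ZMod 12) (k : Fin 3) (b : B) :
    (- h (L.rev.c (-k + 2) b) = - h (L.rev.c (-k + 1) b) + 1 ∨
      - h (L.rev.c (-k + 2) b) = - h (L.rev.c (-k + 1) b) - 2) ↔
    (h (L.c (k + 2) b) = h (L.c (k + 1) b) + 1 ∨ h (L.c (k + 2) b) = h (L.c (k + 1) b) - 2) := by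
  rw [(L.rev_c k b).2.1, (L.rev_c k b).2.2]
  constructor
  · rintro (h1 | h1)
    · left; linear_combination h1
    · right; linear_combination h1
  · rintro (h1 | h1)
    · left; linear_combination h1
    · right; linear_combination h1

theorem rev_up_at (L : Lab X V) (h : V → ZMod 12) (k : Fin 3) (b : B) :
    (- h (L.rev.c (-k + 2) b) = - h (L.rev.c (-k + 1) b) + 1) ↔
    h (L.c (k + 2) b) = h (L.c (k + 1) b) + 1 := by
  rw [(L.rev_c k b).2.1, (L.rev_c k b).2.2]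
  constructor
  · intro h1
    linear_combination h1
  · intro h1
    linear_combination h1

theorem rev_up_at' (L : Lab X V) (h : V → ZMod 12) (i : Fin 3) (b : B) :
    (- h (L.rev.c (i + 2) b) = - h (L.rev.c (i + 1) b) + 1) ↔
    h (L.c (-i + 2) b) = h (L.c (-i + 1) b) + 1 := by
  have h1 := rev_up_at L h (-i) b
  rwa [neg_neg] at h1

theorem rev_valid (L : Lab X V) (h : V → ZMod 12) : L.rev.Valid (fun v => - h v) ↔ L.Valid h := by
  unfold Lab.Valid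
  rw [rev_forall]
  exact forall_congr' fun k => forall_congr' fun b => rev_valid_at L h k b

theorem rev_HE (L : Lab X V) (h : V → ZMod 12) : L.rev.HE (fun v => - h v) = L.HE h := by
  funext x y
  apply propext
  unfold Lab.HE
  constructor
  · rintro ⟨i, b, h1, rfl, rfl⟩
    exact ⟨-i, b, (rev_up_at' L h i b).1 h1, rfl, rfl⟩
  · rintro ⟨k, b, h1, rfl, rfl⟩
    refine ⟨-k, b, (rev_up_at L h k b).2 h1, rfl, ?_⟩
    rw [(X.rev_e k b).1]

theorem rev_conn (L : Lab X V) (h : V → ZMod 12) :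
    L.rev.Conn (fun v => - h v) ↔ L.Conn h := by
  unfold Lab.Conn
  rw [rev_HE]

theorem rev_sol (L : Lab X V) (h : V → ZMod 12) :
    L.rev.Sol (fun v => - h v) ↔ L.Sol h := by
  unfold Lab.Sol
  rw [rev_valid, rev_conn]

theorem rev_type1 {j : Fin 3} {b₁ b₂ : B} (L : Lab X V) (h : V → ZMod 12) :
    L.rev.type1 (-j) b₁ b₂ (fun v => - h v) ↔ L.type2 j b₁ b₂ h := by
  unfold Lab.type1 Lab.type2
  simp only
  rw [(L.rev_c j b₁).1, (L.rev_c j b₁).2.1, (L.rev_c j b₁).2.2, (L.rev_c j b₂).2.1,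
    (L.rev_c j b₂).2.2]
  constructor
  · rintro ⟨h1, h2⟩
    exact ⟨by linear_combination - h1, by linear_combination - h2⟩
  · rintro ⟨h1, h2⟩
    exact ⟨by linear_combination - h1, by linear_combination - h2⟩

theorem rev_ZS {j : Fin 3} {b₁ b₂ : B} (Q : Sq4 X j b₁ b₂) (L : Lab X V) (h : V → ZMod 12) :
    L.rev.ZS (-j) b₁ b₂ (fun v => - h v) ↔ L.ZS j b₁ b₂ h := by
  unfold Lab.ZS
  simp only
  rw [(L.rev_c j b₁).1, (L.rev_c j b₁).2.1, (L.rev_c j b₁).2.2, (L.rev_c j b₂).2.1,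
    (L.rev_c j b₂).2.2, (X.rev_e j b₁).2.2, (X.rev_e j b₂).2.2, Q.face, Q.face']
  -- the first four conditions
  have hA : (- h (L.c j b₁) = 0 ∧ - h (L.c (j + 2) b₂) = - h (L.c (j + 2) b₁) ∧
      - h (L.c (j + 1) b₁) = - h (L.c (j + 2) b₁) - 2 ∧
      - h (L.c (j + 1) b₂) = - h (L.c (j + 2) b₁) - 2) ↔
      (h (L.c j b₁) = 0 ∧ h (L.c (j + 1) b₂) = h (L.c (j + 1) b₁) ∧
      h (L.c (j + 2) b₁) = h (L.c (j + 1) b₁) - 2 ∧
      h (L.c (j + 2) b₂) = h (L.c (j + 1) b₁) - 2) := by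
    constructor
    · rintro ⟨h0, h1, h2, h3⟩
      exact ⟨by linear_combination - h0, by linear_combination h2 - h3,
        by linear_combination h2, by linear_combination h2 - h1⟩
    · rintro ⟨h0, h1, h2, h3⟩
      exact ⟨by linear_combination - h0, by linear_combination h2 - h3,
        by linear_combination h2, by linear_combination h2 - h1⟩
  -- validity
  have hB : (∀ i b, b ≠ b₁ → b ≠ b₂ →
        - h (L.rev.c (i + 2) b) = - h (L.rev.c (i + 1) b) + 1 ∨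
        - h (L.rev.c (i + 2) b) = - h (L.rev.c (i + 1) b) - 2) ↔
      (∀ i b, b ≠ b₁ → b ≠ b₂ →
        h (L.c (i + 2) b) = h (L.c (i + 1) b) + 1 ∨
        h (L.c (i + 2) b) = h (L.c (i + 1) b) - 2) := by
    rw [rev_forall]
    exact forall_congr' fun k => forall_congr' fun b => forall_congr' fun _ =>
      forall_congr' fun _ => rev_valid_at L h k b
  -- edges
  have hR : (fun x y : B ⊕ W => ∃ i b, b ≠ b₁ ∧ b ≠ b₂ ∧ X.rev.e i b ≠ X.e (j + 2) b₂ ∧
        X.rev.e i b ≠ X.e (j + 2) b₁ ∧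
        - h (L.rev.c (i + 2) b) = - h (L.rev.c (i + 1) b) + 1 ∧
        x = Sum.inl b ∧ y = Sum.inr (X.rev.e i b)) =
      (fun x y : B ⊕ W => ∃ i b, b ≠ b₁ ∧ b ≠ b₂ ∧ X.e i b ≠ X.e (j + 2) b₁ ∧
        X.e i b ≠ X.e (j + 2) b₂ ∧ h (L.c (i + 2) b) = h (L.c (i + 1) b) + 1 ∧
        x = Sum.inl b ∧ y = Sum.inr (X.e i b)) := by
    funext x y
    apply propext
    constructor
    · rintro ⟨i, b, g1, g2, g3, g4, g5, rfl, rfl⟩
      exact ⟨-i, b, g1, g2, g4, g3, (rev_up_at' L h i b).1 g5, rfl, rfl⟩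
    · rintro ⟨k, b, g1, g2, g3, g4, g5, rfl, rfl⟩
      refine ⟨-k, b, g1, g2, ?_, ?_, (rev_up_at L h k b).2 g5, rfl, ?_⟩
      · rw [(X.rev_e k b).1]; exact g4
      · rw [(X.rev_e k b).1]; exact g3
      · rw [(X.rev_e k b).1]
  rw [hR, hB]
  have hs : ∀ x : B ⊕ W, (x ≠ Sum.inl b₁ ∧ x ≠ Sum.inl b₂ ∧ x ≠ Sum.inr (X.e (j + 2) b₂) ∧
      x ≠ Sum.inr (X.e (j + 2) b₁)) ↔ (x ≠ Sum.inl b₁ ∧ x ≠ Sum.inl b₂ ∧
      x ≠ Sum.inr (X.e (j + 2) b₁) ∧ x ≠ Sum.inr (X.e (j + 2) b₂)) := fun x =>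
    and_congr_right fun _ => and_congr_right fun _ => and_comm
  constructor
  · rintro ⟨a0, a1, a2, a3, a4, a5⟩
    obtain ⟨c0, c1, c2, c3⟩ := hA.1 ⟨a0, a1, a2, a3⟩
    exact ⟨c0, c1, c2, c3, a4, fun x y hx hy => a5 x y ((hs x).2 hx) ((hs y).2 hy)⟩
  · rintro ⟨a0, a1, a2, a3, a4, a5⟩
    obtain ⟨c0, c1, c2, c3⟩ := hA.2 ⟨a0, a1, a2, a3⟩
    exact ⟨c0, c1, c2, c3, a4, fun x y hx hy => a5 x y ((hs x).1 hx) ((hs y).1 hy)⟩

variable [Fintype B] [Fintype V] [DecidableEq V]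

omit [DecidableEq V] in
theorem rev_E (L : Lab X V) (m : V → ZMod 4) (h : V → ZMod 12) :
    L.rev.E m (fun v => - h v) = - L.E m h := by
  have h1 : ∑ b, ∑ j, kap (h (L.rev.c j b)) = ∑ b, ∑ j, kap (h (L.c j b)) := by
    refine Finset.sum_congr rfl fun b _ => ?_
    exact Equiv.sum_comp (Equiv.neg (Fin 3)) fun j => kap (h (L.c j b))
  unfold Lab.E
  simp only [map_neg, mul_neg, Finset.sum_neg_distrib]
  rw [h1]
  ring

theorem rev_S (L : Lab X V) (m : V → ZMod 4) : L.rev.S m = L.S m := by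
  unfold Lab.S
  refine (dual_sum _).trans ?_
  refine Finset.sum_congr rfl fun h _ => ?_
  have e1 : (Equiv.neg (V → ZMod 12)) h = fun v => - h v := rfl
  rw [e1, rev_E, eps_neg]
  by_cases hs : L.Sol h
  · rw [if_pos hs, if_pos ((rev_sol L h).2 hs)]
  · rw [if_neg hs, if_neg fun hs' => hs ((rev_sol L h).1 hs')]

theorem rev_T1 {j : Fin 3} {b₁ b₂ : B} (Q : Sq4 X j b₁ b₂) (L : Lab X V) (m : V → ZMod 4) :
    L.rev.T1 (-j) b₁ b₂ m = L.T2 j b₁ b₂ m := by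
  clear Q
  unfold Lab.T1 Lab.T2
  refine (Equiv.sum_comp (Equiv.neg (V → ZMod 12)) _).symm.trans ?_
  refine Finset.sum_congr rfl fun h _ => ?_
  have e1 : (Equiv.neg (V → ZMod 12)) h = fun v => - h v := rfl
  rw [e1, rev_E, eps_neg]
  have hiff := and_congr (rev_sol L h) (rev_type1 (j := j) (b₁ := b₁) (b₂ := b₂) L h)
  by_cases hs : L.Sol h ∧ L.type2 j b₁ b₂ h
  · rw [if_pos hs, if_pos (hiff.2 hs)]
  · rw [if_neg hs, if_neg fun hs' => hs (hiff.1 hs')]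

theorem rev_M1 {j : Fin 3} {b₁ b₂ : B} (Q : Sq4 X j b₁ b₂) (L : Lab X V) (m : V → ZMod 4)
    (hm : m (L.c j b₁) = 0) :
    L.rev.M1 (-j) b₁ b₂ m = - L.M1 j b₁ b₂ m := by
  clear hm
  unfold Lab.M1
  rw [← Finset.sum_neg_distrib]
  refine (Equiv.sum_comp (Equiv.neg (V → ZMod 12)) _).symm.trans ?_
  refine Finset.sum_congr rfl fun h _ => ?_
  have e1 : (Equiv.neg (V → ZMod 12)) h = fun v => - h v := rfl
  rw [e1, rev_E]
  by_cases hz : L.ZS j b₁ b₂ h
  · rw [if_pos hz, if_pos ((rev_ZS Q L h).2 hz), (L.rev_c j b₁).2.1]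
    simp only
    rw [hz.2.2.1]
    have e2 : - L.E m h + kap (-(h (L.c (j + 1) b₁) - 2)) =
        -(L.E m h + kap (h (L.c (j + 1) b₁))) + 2 := by
      rw [map_neg, map_sub]
      have : kap 2 = 2 := by decide
      rw [this]
      ring
    rw [e2, eps_add_two, eps_neg]
  · rw [if_neg hz, if_neg fun hz' => hz ((rev_ZS Q L h).1 hz'), neg_zero]

end Vale.Agent.P039.Sk
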