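import Vale.Agent.P039.Sp.Tr
import Vale.Agent.P039.Sp.Rev
import Vale.Agent.P039.Sp.Down
import Vale.Agent.P039.Sp.DgDown

/-! Splittings give a positive sum. -/

namespace Vale.Agent.P039.Sk

variable {B W V : Type}

open PosAux

/-- what is proved by induction -/
def SPosBelow (n : ℕ) : Prop :=
  ∀ {B W V : Type} {X : Web B W} [Fintype B] [Fintype W] [Fintype V]
    [DecidableEq V] (L : Lab X V), Fintype.card B < n → Fintype.card V = Fintype.card B + 2 →
    2 ≤ Fintype.card B → ∀ {col : B → Bool}, X.Split col → ∀ {x y : V}, x ≠ y →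
    L.Mono col x → L.Mono col y →
    0 < L.S (fun v => (if v = x then 1 else 0) + if v = y then 1 else 0)

theorem Sq4.symm {X : Web B W} {j : Fin 3} {b₁ b₂ : B} (Q : Sq4 X j b₁ b₂) : Sq4 X j b₂ b₁ where
  ne := Q.ne.symm
  face := Q.face'
  face' := Q.face
  n11 := Q.n22
  n12 := Q.n21
  n21 := Q.n12
  n22 := Q.n11

section

variable {X : Web B W} [Fintype B] [Fintype W] [Fintype V] [DecidableEq V]

/-- marks at two faces -/
theorem nonneg_marks (L : Lab X V) (hc : Fintype.card V = Fintype.card B + 2)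
    (hN : 2 ≤ Fintype.card B) (x y : V) :
    0 ≤ L.S (fun v => (if v = x then 1 else 0) + if v = y then 1 else 0) := by
  by_cases h : x = y
  · subst h
    have h3 : (fun v : V => ((if v = x then (1 : ZMod 4) else 0) +
        if v = x then (1 : ZMod 4) else 0)) = fun v => if v = x then 2 else 0 := by
      ext v
      split_ifs
      · decide
      · simp
    rw [h3, S_double L hc hN x]
  · exact S_nonneg L hc x y h

theorem core {n : ℕ} (IH : SPosBelow n) (L : Lab X V) (hn : Fintype.card B ≤ n)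
    (hc : Fintype.card V = Fintype.card B + 2)
    (hN : 2 ≤ Fintype.card B) {col : B → Bool} (hs : X.Split col) {x y : V} (hxy : x ≠ y)
    (hx : L.Mono col x) (hy : L.Mono col y) {j : Fin 3} {b₁ b₂ : B} (Q : Sq4 X j b₁ b₂)
    (hsx : x ≠ L.c j b₁) (hsy : y ≠ L.c j b₁) (h1 : col b₁ = true) (h2 : col b₂ = false)
    {β₁ β₂ n' : B} (e₁ : X.e j β₁ = X.e (j + 2) b₁) (e₂ : X.e j β₂ = X.e (j + 2) b₂)
    (en : X.e (j + 2) n' = X.e j b₂) (c₂ : col β₂ = true)
    (hcase : col β₁ = false ∨ col n' = true) :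
    0 < L.S (fun v => (if v = x then 1 else 0) + if v = y then 1 else 0) := by
  classical
  obtain ⟨X', R⟩ := Q.exists_rel
  -- the outer neighbours
  have hβ₁ : β₁ ≠ b₁ ∧ β₁ ≠ b₂ := by
    constructor
    · rintro rfl; exact Q.n11 e₁
    · rintro rfl; exact Q.n21 e₁
  have hβ₂ : β₂ ≠ b₁ ∧ β₂ ≠ b₂ := by
    constructor
    · rintro rfl; exact Q.n12 e₂
    · rintro rfl; exact Q.n22 e₂
  obtain ⟨γ₁, g₁⟩ := R.ex_f hβ₁.1 hβ₁.2
  obtain ⟨γ₂, g₂⟩ := R.ex_f hβ₂.1 hβ₂.2
  rw [← g₁] at e₁ hcase
  rw [← g₂] at e₂ c₂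
  have hfalse := R.down_false hs h1 h2 e₂ c₂
  have hp := R.ne_of_wconn L hc hfalse
  have harc : col (γ₁ : B) = false ∨
      (∀ b, L.c (j + 1) b = L.c (j + 1) b₂ → b ≠ b₂ → col b = true) := by
    rcases hcase with h | h
    · exact Or.inl h
    · right
      refine arc L hc hN hs (k := j + 1) (p := γ₂) (n := n') ?_ ?_ h2 c₂ h
      · rw [f11, f12]; exact e₂.symm
      · rw [f11, f12]; exact en
  have htrue := R.down_true hs h1 h2 e₁ e₂ c₂ (by
    rcases harc with h | h
    · exact Or.inl h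
    · right
      refine ⟨fun hsf => hp ((L.sameFace _ _ _).1 hsf), fun b hb hne => h b ?_ hne⟩
      exact ((L.sameFace _ _ _).1 hb).symm)
  have hsplit : X'.Split (fun b => col (b : B)) := ⟨htrue, hfalse⟩
  obtain ⟨L', hL'⟩ := R.exists_lab L hp
  obtain ⟨hx', hmx⟩ := R.mono_down L L' hL' h1 h2 e₁ e₂ c₂ harc hx hsx
  obtain ⟨hy', hmy⟩ := R.mono_down L L' hL' h1 h2 e₁ e₂ c₂ harc hy hsy
  have hcB := R.card_B
  have hcV := R.card_V L hp
  obtain ⟨δ₁, δ₂, hδ, -, -⟩ := R.betas
  have hN' : 2 ≤ Fintype.card {b : B // b ≠ b₁ ∧ b ≠ b₂} :=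
    Fintype.one_lt_card_iff.2 ⟨δ₁, δ₂, hδ⟩
  have hpos := IH L' (by omega) (by omega) hN' hsplit
    (x := ⟨x, hx'⟩) (y := ⟨y, hy'⟩) (fun h => hxy (congrArg Subtype.val h)) hmx hmy
  set m : V → ZMod 4 := fun v => (if v = x then 1 else 0) + if v = y then 1 else 0 with hm
  have hms : m (L.c j b₁) = 0 := by
    simp only [hm]
    rw [if_neg (Ne.symm hsx), if_neg (Ne.symm hsy), add_zero]
  have hmarks : L.m1 j b₁ b₂ m = fun v => (if v = ⟨x, hx'⟩ then 1 else 0) +
      if v = ⟨y, hy'⟩ then 1 else 0 := by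
    funext v
    have hmp : m (L.c (j + 1) b₂) = 0 := by
      simp only [hm]
      rw [if_neg (Ne.symm hx'.2), if_neg (Ne.symm hy'.2), add_zero]
    have h6 : L.m1 j b₁ b₂ m v = m v.1 := by
      unfold Lab.m1
      by_cases h : v.1 = L.c (j + 1) b₁
      · rw [if_pos h, hmp, add_zero, h]
      · rw [if_neg h]
    rw [h6]
    simp only [hm, Subtype.ext_iff]
  have hT := T1_add_M1 R L hp L' hL' m hms
  rw [hmarks] at hT
  have hS := S_eq_T1_add_T2 Q L m
  have hcW : Fintype.card W = Fintype.card B := (Fintype.card_congr (X.e 0)).symm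
  have hcd : Fintype.card V = Fintype.card W + 2 := by omega
  by_cases hq : L.c (j + 2) b₁ = L.c (j + 2) b₂
  · rw [M1_zero Q L hc hp hq m hms, add_zero] at hT
    rw [hS, T2_zero Q L hc hq m, add_zero, hT]
    exact hpos
  · obtain ⟨d0, d1, d2, d3, d4⟩ := Q.dual_c L
    have hmd : m (L.dual.c (-j) (X.e (j + 2) b₁)) = 0 := by rw [d0]; exact hms
    have hpd : L.dual.c (-j + 1) (X.e (j + 2) b₁) ≠ L.dual.c (-j + 1) (X.e (j + 2) b₂) := by
      rw [d1, d2]
      exact fun h => hq h.symm
    obtain ⟨B'', W'', V'', i1', i2', i3', i4', X'', L'', π', h1', h2', h3', h4'⟩ :=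
      term_step Q.dual L.dual hcd m hmd hpd
    rw [dual_T1 Q L m, dual_M1 Q L m hms, hm, push_add, push_single, push_single, ← hm] at h4'
    have hnn := nonneg_marks L'' h2' h3' (π' x) (π' y)
    rw [← h4'] at hnn
    rw [hS]
    have h5 : 0 < L.T1 j b₁ b₂ m + L.M1 j b₁ b₂ m := by rw [hT]; exact hpos
    linarith

/-- the step at a 4-face, when `b₁` and one more neighbour have colour `true` -/
theorem core2 {n : ℕ} (IH : SPosBelow n) (L : Lab X V) (hn : Fintype.card B ≤ n)
    (hc : Fintype.card V = Fintype.card B + 2)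
    (hN : 2 ≤ Fintype.card B) {col : B → Bool} (hs : X.Split col) {x y : V} (hxy : x ≠ y)
    (hx : L.Mono col x) (hy : L.Mono col y) {j : Fin 3} {b₁ b₂ : B} (Q : Sq4 X j b₁ b₂)
    (hsx : x ≠ L.c j b₁) (hsy : y ≠ L.c j b₁) (h1 : col b₁ = true) (h2 : col b₂ = false)
    {β₁ β₂ : B} (e₁ : X.e j β₁ = X.e (j + 2) b₁) (e₂ : X.e j β₂ = X.e (j + 2) b₂)
    (hcase : col β₁ = true ∨ col β₂ = true) :
    0 < L.S (fun v => (if v = x then 1 else 0) + if v = y then 1 else 0) := by
  classical
  -- the two other neighbours of `ω₂`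
  obtain ⟨n', en'⟩ := (X.e (j + 2)).surjective (X.e j b₂)
  obtain ⟨n₂, en₂⟩ := (X.e (j + 1)).surjective (X.e j b₂)
  obtain ⟨r0, r1, r2⟩ := L.rev_c j b₁
  have hsx' : x ≠ L.rev.c (-j) b₁ := by rw [r0]; exact hsx
  have hsy' : y ≠ L.rev.c (-j) b₁ := by rw [r0]; exact hsy
  have e₁' : X.rev.e (-j) β₂ = X.rev.e (-j + 2) b₁ := by
    rw [(X.rev_e j β₂).1, (X.rev_e j b₁).2.2, Q.face', e₂]
  have e₂' : X.rev.e (-j) β₁ = X.rev.e (-j + 2) b₂ := by
    rw [(X.rev_e j β₁).1, (X.rev_e j b₂).2.2, Q.face, e₁]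
  have en₂' : X.rev.e (-j + 2) n₂ = X.rev.e (-j) b₂ := by
    rw [(X.rev_e j n₂).2.2, (X.rev_e j b₂).1, en₂]
  by_cases c₂ : col β₂ = true
  · by_cases c₁ : col β₁ = true
    · by_cases cn : col n' = true
      · exact core IH L hn hc hN hs hxy hx hy Q hsx hsy h1 h2 e₁ e₂ en' c₂ (Or.inr cn)
      · have cn₂ : col n₂ = true := by
          obtain ⟨i, b, hb, hcb⟩ := exists_nb hN hs (X.e j b₂) true
          rcases fcase i j with rfl | rfl | rfl
          · have : b = b₂ := (X.e _).injective hb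
            rw [this, h2] at hcb
            exact absurd hcb (by simp)
          · have : b = n₂ := (X.e _).injective (hb.trans en₂.symm)
            rw [← this]
            exact hcb
          · have : b = n' := (X.e _).injective (hb.trans en'.symm)
            rw [this] at hcb
            exact absurd hcb cn
        rw [← rev_S L]
        exact core IH L.rev hn hc hN (rev_split hs) hxy (rev_mono L hx) (rev_mono L hy) Q.rev
          hsx' hsy' h1 h2 e₁' e₂' en₂' c₁ (Or.inr cn₂)
    · exact core IH L hn hc hN hs hxy hx hy Q hsx hsy h1 h2 e₁ e₂ en' c₂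
        (Or.inl (by simpa using c₁))
  · have c₁ : col β₁ = true := hcase.resolve_right c₂
    rw [← rev_S L]
    exact core IH L.rev hn hc hN (rev_split hs) hxy (rev_mono L hx) (rev_mono L hy) Q.rev
      hsx' hsy' h1 h2 e₁' e₂' en₂' c₁ (Or.inl (by simpa using c₂))

/-- the step at a 4-face whose black vertices have different colours -/
theorem core3 {n : ℕ} (IH : SPosBelow n) (L : Lab X V) (hn : Fintype.card B ≤ n)
    (hc : Fintype.card V = Fintype.card B + 2)
    (hN : 2 ≤ Fintype.card B) {col : B → Bool} (hs : X.Split col) {x y : V} (hxy : x ≠ y)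
    (hx : L.Mono col x) (hy : L.Mono col y) {j : Fin 3} {b₁ b₂ : B} (Q : Sq4 X j b₁ b₂)
    (hsx : x ≠ L.c j b₁) (hsy : y ≠ L.c j b₁) (h1 : col b₁ = true) (h2 : col b₂ = false) :
    0 < L.S (fun v => (if v = x then 1 else 0) + if v = y then 1 else 0) := by
  obtain ⟨β₁, e₁⟩ := (X.e j).surjective (X.e (j + 2) b₁)
  obtain ⟨β₂, e₂⟩ := (X.e j).surjective (X.e (j + 2) b₂)
  by_cases hcase : col β₁ = true ∨ col β₂ = true
  · exact core2 IH L hn hc hN hs hxy hx hy Q hsx hsy h1 h2 e₁ e₂ hcase
  · push Not at hcase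
    have hsq : L.c j b₂ = L.c j b₁ := L.step j b₁ b₂ Q.face
    refine core2 IH L hn hc hN hs.flip hxy hx.flip hy.flip Q.symm (by rw [hsq]; exact hsx)
      (by rw [hsq]; exact hsy) (by simp [h2]) (by simp [h1]) e₂ e₁ ?_
    left
    simpa using hcase.2

/-- a marked digon -/
theorem digon_step {n : ℕ} (IH : SPosBelow n) (L : Lab X V) (hn : Fintype.card B ≤ n)
    (hc : Fintype.card V = Fintype.card B + 2)
    (hN : 2 ≤ Fintype.card B) {col : B → Bool} (hs : X.Split col) {x y : V} (hxy : x ≠ y)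
    (hx : L.Mono col x) (hy : L.Mono col y) (hd : deg L x = 1) :
    0 < L.S (fun v => (if v = x then 1 else 0) + if v = y then 1 else 0) := by
  classical
  obtain ⟨k, b, hb, hd⟩ := deg_one L hd
  have hcW : Fintype.card W = Fintype.card B := (Fintype.card_congr (X.e 0)).symm
  have hiso : X.e k b ≠ X.e (k + 2) b := by
    intro h
    obtain ⟨i, a, ha, hca⟩ := exists_nb hN hs (X.e (k + 2) b) (!(col b))
    have hall : X.e i b = X.e (k + 2) b := by
      rcases fcase i k with rfl | rfl | rfl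
      · exact h
      · exact hd
      · rfl
    have : a = b := (X.e i).injective (ha.trans hall.symm)
    rw [this] at hca
    simp at hca
  have hW : ∃ w, w ≠ X.e (k + 2) b :=
    Fintype.exists_ne_of_one_lt_card (by omega) _
  obtain ⟨X', R⟩ := exists_dg hd hiso
  obtain ⟨L', hL'⟩ := R.exists_lab L
  have hcB := R.card_B
  have hcV := DgRel.card_V (j := k) (b := b) L
  obtain ⟨nm1, nm2⟩ := R.not_mono L hs hW
  have hyx : y ≠ L.c k b := by rw [hb]; exact hxy.symm
  have hy1 : y ≠ L.c (k + 1) b := fun h => nm1 (h ▸ hy)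
  have hy2 : y ≠ L.c (k + 2) b := fun h => nm2 (h ▸ hy)
  have hu1 : L.c (k + 1) b ≠ L.c k b := fun h => fne1 k (L.cls _ _ _ _ h)
  have hu2 : L.c (k + 2) b ≠ L.c k b := fun h => fne2 k (L.cls _ _ _ _ h)
  rw [S_digon_marked R L L' hL' _ (by simp [hb, hxy])]
  have hmarks : ∀ u (hu : u ≠ L.c k b), (fun v : {v : V // v ≠ L.c k b} =>
      (((if v.1 = x then (1 : ZMod 4) else 0) +
      if v.1 = y then (1 : ZMod 4) else 0) + if v.1 = u then (1 : ZMod 4) else 0)) =
      fun v => (if v = ⟨y, hyx⟩ then (1 : ZMod 4) else 0) +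
        if v = ⟨u, hu⟩ then (1 : ZMod 4) else 0 := by
    intro u hu
    ext v
    have h4 : v.1 ≠ x := by
      rw [← hb]
      exact v.2
    rw [if_neg h4, zero_add]
    simp only [Subtype.ext_iff]
  rw [hmarks _ hu1, hmarks _ hu2]
  have hne1 : (⟨y, hyx⟩ : {v : V // v ≠ L.c k b}) ≠ ⟨L.c (k + 1) b, hu1⟩ :=
    fun h => hy1 (congrArg Subtype.val h)
  have hne2 : (⟨y, hyx⟩ : {v : V // v ≠ L.c k b}) ≠ ⟨L.c (k + 2) b, hu2⟩ :=
    fun h => hy2 (congrArg Subtype.val h)
  have n1 := S_nonneg L' (by omega) _ _ hne1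
  have n2 := S_nonneg L' (by omega) _ _ hne2
  rcases Nat.lt_or_ge (Fintype.card {a : B // a ≠ b}) 2 with h1 | hN'
  · -- one black vertex is left
    have h1' : Fintype.card {a : B // a ≠ b} = 1 := by omega
    rw [S_theta L' h1' hne1, S_theta L' h1' hne2]
    norm_num
  · have hs' := R.split hs hW
    obtain ⟨z₁, z₂, hz, m1, m2⟩ := exists_mono L' (by omega) hN' hs'
    have hmy : L'.Mono (fun a => col (a : B)) ⟨y, hyx⟩ :=
      (R.mono_iff L L' hL' ⟨y, hyx⟩ hy1 hy2).2 hy
    have key : ∀ z : {v : V // v ≠ L.c k b}, L'.Mono (fun a => col (a : B)) z →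
        z = ⟨y, hyx⟩ ∨ z = ⟨L.c (k + 1) b, hu1⟩ ∨ z = ⟨L.c (k + 2) b, hu2⟩ := by
      intro z hmz
      by_cases e1 : z.1 = L.c (k + 1) b
      · exact Or.inr (Or.inl (Subtype.ext e1))
      · by_cases e2 : z.1 = L.c (k + 2) b
        · exact Or.inr (Or.inr (Subtype.ext e2))
        · left
          by_contra hzy
          have hz' := (R.mono_iff L L' hL' z e1 e2).1 hmz
          have hzx : x ≠ z.1 := by
            rw [← hb]
            exact z.2.symm
          exact mono_le L hN hs hx hy hz' hxy hzx (fun h => hzy (Subtype.ext h.symm))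
    have main : ∀ u (hu : u ≠ L.c k b), (⟨y, hyx⟩ : {v : V // v ≠ L.c k b}) ≠ ⟨u, hu⟩ →
        L'.Mono (fun a => col (a : B)) ⟨u, hu⟩ →
        0 < L'.S (fun v => (if v = ⟨y, hyx⟩ then (1 : ZMod 4) else 0) +
        if v = ⟨u, hu⟩ then (1 : ZMod 4) else 0) := by
      intro u hu hne hmu
      exact IH L' (by omega) (by omega) hN' hs' hne hmy hmu
    have : L'.Mono (fun a => col (a : B)) ⟨L.c (k + 1) b, hu1⟩ ∨
        L'.Mono (fun a => col (a : B)) ⟨L.c (k + 2) b, hu2⟩ := by
      rcases key z₁ m1 with h | h | h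
      · rcases key z₂ m2 with h' | h' | h'
        · exact absurd (h.trans h'.symm) hz
        · exact Or.inl (h' ▸ m2)
        · exact Or.inr (h' ▸ m2)
      · exact Or.inl (h ▸ m1)
      · exact Or.inr (h ▸ m1)
    rcases this with h | h
    · have := main _ hu1 hne1 h
      linarith
    · have := main _ hu2 hne2 h
      linarith

end

theorem split_aux (n : ℕ) : SPosBelow n := by
  induction n with
  | zero =>
    intro B W V X _ _ _ _ L hn
    exact absurd hn (Nat.not_lt_zero _)
  | succ n IH =>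
    intro B W V X _ _ _ _ L hn hc hN col hs x y hxy hx hy
    classical
    have hn' : Fintype.card B ≤ n := by omega
    by_cases hdx : deg L x = 1
    · exact digon_step IH L hn' hc hN hs hxy hx hy hdx
    by_cases hdy : deg L y = 1
    · have h3 := digon_step IH L hn' hc hN hs hxy.symm hy hx hdy
      have h4 : (fun v : V => (if v = y then (1 : ZMod 4) else 0) +
          if v = x then (1 : ZMod 4) else 0) = fun v => (if v = x then 1 else 0) +
          if v = y then 1 else 0 := by
        ext v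
        rw [add_comm]
      rw [h4] at h3
      exact h3
    -- no digons
    have h2' : ∀ v, 2 ≤ deg L v := by
      intro v
      have h4 := deg_pos L v
      by_contra h5
      have h6 : deg L v = 1 := by omega
      obtain ⟨k, b, hb, hd⟩ := deg_one L h6
      have hm : L.Mono col v := by
        intro k' a a' ha ha'
        have hk : k' = k := L.cls _ _ _ _ (ha.trans hb.symm)
        subst hk
        rw [digon_unique L hd (ha.trans hb.symm), digon_unique L hd (ha'.trans hb.symm)]
      have hvx : x ≠ v := fun h => hdx (h ▸ h6)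
      have hvy : y ≠ v := fun h => hdy (h ▸ h6)
      exact mono_le L hN hs hx hy hm hxy hvx hvy
    obtain ⟨k, b₁, b₂, hF, Q⟩ := exists_sq4 L (x := x) _ (card_F2 L hc x y h2')
      (fun v hv => (Finset.mem_filter.1 hv).2.2) (by
        intro k b hd
        have h3 := deg_of_digon L hd
        have h4 := h2' (L.c k b)
        omega)
    obtain ⟨⟨hsx, hsy⟩, -⟩ := (Finset.mem_filter.1 hF).2
    have hnm : ¬ L.Mono col (L.c k b₁) := fun h =>
      mono_le L hN hs hx hy h hxy hsx.symm hsy.symm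
    have hne : col b₁ ≠ col b₂ := by
      intro h
      apply hnm
      obtain ⟨X', R⟩ := Q.exists_rel
      have key : ∀ k' a, L.c k' a = L.c k b₁ → col a = col b₁ := by
        intro k' a ha
        rcases (R.c_only L ha).2 with h' | h'
        · rw [h']
        · rw [h', h]
      intro k' a a' ha ha'
      rw [key k' a ha, key k' a' ha']
    rcases Bool.eq_false_or_eq_true (col b₁) with h1 | h1
    · have h2 : col b₂ = false := by
        rcases Bool.eq_false_or_eq_true (col b₂) with h | h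
        · exact absurd (h1.trans h.symm) hne
        · exact h
      exact core3 IH L hn' hc hN hs hxy hx hy Q hsx.symm hsy.symm h1 h2
    · have h2 : col b₂ = true := by
        rcases Bool.eq_false_or_eq_true (col b₂) with h | h
        · exact h
        · exact absurd (h1.trans h.symm) hne
      exact core3 IH L hn' hc hN hs.flip hxy hx.flip hy.flip Q hsx.symm hsy.symm (by simp [h1])
        (by simp [h2])

theorem S_pos_of_split {X : Web B W} [Fintype B] [Fintype W] [Fintype V] [DecidableEq V]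
    (L : Lab X V) (hc : Fintype.card V = Fintype.card B + 2) (hN : 2 ≤ Fintype.card B)
    {col : B → Bool} (hs : X.Split col) {x y : V} (hxy : x ≠ y) (hx : L.Mono col x)
    (hy : L.Mono col y) :
    0 < L.S (fun v => (if v = x then 1 else 0) + if v = y then 1 else 0) :=
  split_aux (Fintype.card B + 1) L (Nat.lt_succ_self _) hc hN hs hxy hx hy

theorem ham_of_split {X : Web B W} [Fintype B] [Fintype W] [Fintype V]
    [DecidableEq B] [DecidableEq W]
    (L : Lab X V) (hc : Fintype.card V = Fintype.card B + 2) (hN : 2 ≤ Fintype.card B)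
    {col : B → Bool} (hs : X.Split col) : X.graph.IsHamiltonian := by
  classical
  obtain ⟨x, y, hxy, hx, hy⟩ := exists_mono L hc hN hs
  have h := S_pos_of_split L hc hN hs hxy hx hy
  by_cases hex : ∃ h : V → ZMod 12, L.Sol h
  · obtain ⟨h, hh⟩ := hex
    exact ham_of_sol L hN hh
  · exfalso
    push Not at hex
    unfold Lab.S at h
    rw [Finset.sum_eq_zero] at h
    · exact lt_irrefl _ h
    · intro h' _
      rw [if_neg (hex h')]

end Vale.Agent.P039.Sk
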