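import Vale.Agent.P039.Sp.LemD

/-! Monochromatic faces and colour changes. -/

set_option linter.unusedSectionVars false

namespace Vale.Agent.P039.Sk

variable {B W V : Type}

theorem Tr_ne {a b : Bool} (h : a ≠ b) : a = !b := by
  revert a b
  decide

theorem Tr_conn {X : Web B W} {col : B → Bool} {σ : Bool} {w w' : W}
    (h : Relation.EqvGen
      (fun w w' => ∃ b i i', col b = σ ∧ X.e i b = w ∧ X.e i' b = w') w w') :
    w = w' ∨ ((∃ i b, X.e i b = w ∧ col b = σ) ∧ ∃ i b, X.e i b = w' ∧ col b = σ) := by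
  induction h with
  | rel x y h =>
    obtain ⟨b, i, i', h1, h2, h3⟩ := h
    exact Or.inr ⟨⟨i, b, h2, h1⟩, ⟨i', b, h3, h1⟩⟩
  | refl x => exact Or.inl rfl
  | symm x y _ ih =>
    rcases ih with ih | ih
    · exact Or.inl ih.symm
    · exact Or.inr ⟨ih.2, ih.1⟩
  | trans x y z _ _ ih1 ih2 =>
    rcases ih1 with rfl | ih1
    · exact ih2
    · rcases ih2 with rfl | ih2
      · exact Or.inr ih1
      · exact Or.inr ⟨ih1.1, ih2.2⟩

theorem Tr_rho (X : Web B W) (k : Fin 3) (a : B) : X.e (k + 1) (X.rho k a) = X.e (k + 2) a := by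
  simp [Web.rho]

theorem Tr_rho_eq (X : Web B W) {k : Fin 3} {a a' : B} (h : X.e (k + 1) a' = X.e (k + 2) a) :
    X.rho k a = a' :=
  (X.e (k + 1)).injective ((Tr_rho X k a).trans h.symm)

theorem Tr_c_rho {X : Web B W} (L : Lab X V) (k : Fin 3) (a : B) :
    L.c k (X.rho k a) = L.c k a :=
  L.step k a _ (Tr_rho X k a)

variable {X : Web B W} [Fintype B] [Fintype W] [Fintype V] [DecidableEq V] {col : B → Bool}

/-- every white vertex has black neighbours of both colours -/
theorem exists_nb (hN : 2 ≤ Fintype.card B) (hs : X.Split col) (w : W) (σ : Bool) :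
    ∃ i b, X.e i b = w ∧ col b = σ := by
  have h1 : 1 < Fintype.card W := by
    rw [← Fintype.card_congr (X.e 0)]
    omega
  obtain ⟨w', hw'⟩ := Fintype.exists_ne_of_one_lt_card h1 w
  have h2 : X.WConn col σ := by
    cases σ
    · exact hs.f
    · exact hs.t
  rcases Tr_conn (h2 w w') with h3 | h3
  · exact absurd h3.symm hw'
  · exact h3.1

/-- if the colour does not change along the face then all the face has the colour `σ` -/
theorem Tr_prop (L : Lab X V) {k : Fin 3} {v : V} {σ : Bool}
    (h : ∀ a, L.c k a = v → col a = σ → col (X.rho k a) = σ) {b b' : B} (hb : L.c k b = v)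
    (hb' : L.c k b' = v) (h1 : col b = σ) : col b' = σ := by
  obtain ⟨n, hn⟩ := ((L.sameFace k b b').2 (hb.trans hb'.symm)).exists_nat_pow_eq
  have key : ∀ n : ℕ, L.c k ((X.rho k ^ n) b) = v ∧ col ((X.rho k ^ n) b) = σ := by
    intro n
    induction n with
    | zero => exact ⟨hb, h1⟩
    | succ n ih =>
      rw [pow_succ', Equiv.Perm.mul_apply]
      exact ⟨(Tr_c_rho L k _).trans ih.1, h _ ih.1 ih.2⟩
  rw [← hn]
  exact (key n).2

/-- the changes from `σ` to `!σ` -/
def TrT (X : Web B W) (col : B → Bool) (σ : Bool) : Finset (Fin 3 × B) :=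
  Finset.univ.filter fun p => col p.2 = σ ∧ col (X.rho p.1 p.2) = !σ

theorem Tr_mem {σ : Bool} {k : Fin 3} {a : B} :
    (k, a) ∈ TrT X col σ ↔ col a = σ ∧ col (X.rho k a) = !σ := by
  rw [TrT, Finset.mem_filter]
  exact ⟨fun h => h.2, fun h => ⟨Finset.mem_univ _, h⟩⟩

theorem Tr_three (x : Fin 3 → Bool) (σ : Bool) (h : ∃ i, x i = σ) (h' : ∃ i, x i = !σ) :
    (Finset.univ.filter fun k : Fin 3 => x (k + 2) = σ ∧ x (k + 1) = !σ).card = 1 := by
  revert x σ
  decide

theorem Tr_card (hN : 2 ≤ Fintype.card B) (hs : X.Split col) (σ : Bool) :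
    (TrT X col σ).card = Fintype.card B := by
  classical
  have h1 : ∀ w : W, (Finset.univ.filter fun k : Fin 3 =>
      col ((X.e (k + 2)).symm w) = σ ∧ col ((X.e (k + 1)).symm w) = !σ).card = 1 := by
    intro w
    refine Tr_three (fun i => col ((X.e i).symm w)) σ ?_ ?_
    · obtain ⟨i, b, h1, h2⟩ := exists_nb hN hs w σ
      refine ⟨i, ?_⟩
      rw [← h1]
      simpa using h2
    · obtain ⟨i, b, h1, h2⟩ := exists_nb hN hs w (!σ)
      refine ⟨i, ?_⟩
      rw [← h1]
      simpa using h2
  have h2 : (TrT X col σ).card = ∑ w : W, (Finset.univ.filter fun k : Fin 3 =>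
      col ((X.e (k + 2)).symm w) = σ ∧ col ((X.e (k + 1)).symm w) = !σ).card := by
    rw [Finset.card_eq_sum_card_fiberwise (f := fun p : Fin 3 × B => X.e (p.1 + 2) p.2)
      (t := Finset.univ) (fun _ _ => Finset.mem_coe.2 (Finset.mem_univ _))]
    refine Finset.sum_congr rfl fun w _ => ?_
    refine Finset.card_nbij' (fun p => p.1) (fun k => (k, (X.e (k + 2)).symm w)) ?_ ?_ ?_ ?_
    · rintro ⟨k, a⟩ h
      rw [Finset.mem_coe, Finset.mem_filter, Tr_mem] at h
      obtain ⟨⟨h3, h4⟩, h5⟩ := h
      rw [Finset.mem_coe, Finset.mem_filter]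
      refine ⟨Finset.mem_univ _, ?_, ?_⟩
      · rw [← h5]
        simpa using h3
      · rw [← h5]
        exact h4
    · intro k h
      rw [Finset.mem_coe, Finset.mem_filter] at h
      rw [Finset.mem_coe, Finset.mem_filter, Tr_mem]
      refine ⟨⟨h.2.1, ?_⟩, ?_⟩
      · rw [← h.2.2]
        simp [Web.rho]
      · simp
    · rintro ⟨k, a⟩ h
      rw [Finset.mem_coe, Finset.mem_filter] at h
      simp only at h ⊢
      rw [← h.2, Equiv.symm_apply_apply]
    · intro k _
      rfl
  rw [h2, Finset.sum_congr rfl fun w _ => h1 w, Finset.sum_const, smul_eq_mul, mul_one,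
    Finset.card_univ, Fintype.card_congr (X.e 0)]

/-- a face with two colours has a change from `σ` to `!σ` -/
theorem Tr_exists (L : Lab X V) {v : V} (hv : ¬ L.Mono col v) (σ : Bool) :
    ∃ k a, (k, a) ∈ TrT X col σ ∧ L.c k a = v := by
  unfold Lab.Mono at hv
  push Not at hv
  obtain ⟨k, b, b', h1, h2, h3⟩ := hv
  by_contra hcon
  push Not at hcon
  have h4 : ∀ a, L.c k a = v → col a = σ → col (X.rho k a) = σ := by
    intro a ha hc
    by_contra h5
    exact hcon k a (Tr_mem.2 ⟨hc, Tr_ne h5⟩) ha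
  by_cases h5 : col b = σ
  · exact h3 (h5.trans (Tr_prop L h4 h1 h2 h5).symm)
  · have h6 : col b' = σ := by
      have h7 := Tr_ne h3
      have h8 := Tr_ne h5
      rw [h8] at h7
      cases hb : col b' <;> rw [hb] at h7 <;> simp_all
    exact h5 (Tr_prop L h4 h2 h1 h6)

theorem Tr_not_mono (L : Lab X V) {σ : Bool} {k : Fin 3} {a : B} (h : (k, a) ∈ TrT X col σ) :
    ¬ L.Mono col (L.c k a) := by
  intro hm
  rw [Tr_mem] at h
  have h1 := hm k a (X.rho k a) rfl (Tr_c_rho L k a)
  rw [h.1, h.2] at h1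
  cases σ <;> simp at h1

theorem exists_mono (L : Lab X V) (hc : Fintype.card V = Fintype.card B + 2)
    (hN : 2 ≤ Fintype.card B) (hs : X.Split col) :
    ∃ x y, x ≠ y ∧ L.Mono col x ∧ L.Mono col y := by
  classical
  have h1 : (Finset.univ.filter fun v => ¬ L.Mono col v).card ≤ (TrT X col true).card := by
    have h2 : (Finset.univ.filter fun v => ¬ L.Mono col v) ⊆
        (TrT X col true).image fun p => L.c p.1 p.2 := by
      intro v hv
      rw [Finset.mem_filter] at hv
      obtain ⟨k, a, h3, h4⟩ := Tr_exists L hv.2 true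
      exact Finset.mem_image.2 ⟨(k, a), h3, h4⟩
    exact (Finset.card_le_card h2).trans Finset.card_image_le
  rw [Tr_card hN hs] at h1
  have h2 := Finset.card_filter_add_card_filter_not (s := (Finset.univ : Finset V))
    (fun v => L.Mono col v)
  rw [Finset.card_univ] at h2
  have h3 : 1 < (Finset.univ.filter fun v => L.Mono col v).card := by omega
  obtain ⟨x, hx, y, hy, hxy⟩ := Finset.one_lt_card.1 h3
  exact ⟨x, y, hxy, (Finset.mem_filter.1 hx).2, (Finset.mem_filter.1 hy).2⟩

/-- the number of faces all of whose black vertices have the colour `σ` -/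
theorem Tr_card_le (L : Lab X V) (hN : 2 ≤ Fintype.card B) (hs : X.Split col) (σ : Bool) :
    (Finset.univ.filter fun v => ∀ k b, L.c k b = v → col b = σ).card + Fintype.card W ≤
      2 * (Finset.univ.filter fun b => col b = σ).card + 1 := by
  classical
  refine lemD X L.c L.step L.surj _ ?_ _ ?_ ?_
  · have h2 : X.WConn col σ := by
      cases σ
      · exact hs.f
      · exact hs.t
    intro w w'
    refine Relation.EqvGen.mono (fun x y h => ?_) w w' (h2 w w')
    obtain ⟨b, i, i', h1, h3, h4⟩ := h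
    exact ⟨b, Finset.mem_filter.2 ⟨Finset.mem_univ _, h1⟩, i, i', h3, h4⟩
  · intro k b h
    exact Finset.mem_filter.2 ⟨Finset.mem_univ _, (Finset.mem_filter.1 h).2 k b rfl⟩
  · have hB : 0 < Fintype.card B := by omega
    obtain ⟨b₀⟩ := Fintype.card_pos_iff.1 hB
    obtain ⟨i, b, _, hb⟩ := exists_nb hN hs (X.e 0 b₀) (!σ)
    refine ⟨L.c 0 b, fun h => ?_⟩
    have h3 := (Finset.mem_filter.1 h).2 0 b rfl
    rw [h3] at hb
    cases σ <;> simp at hb

theorem mono_le (L : Lab X V) (hN : 2 ≤ Fintype.card B)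
    (hs : X.Split col) {x y z : V} (hx : L.Mono col x) (hy : L.Mono col y) (hz : L.Mono col z)
    (hxy : x ≠ y) (hxz : x ≠ z) (hyz : y ≠ z) : False := by
  classical
  have h1 := Tr_card_le L hN hs true
  have h2 := Tr_card_le L hN hs false
  have hBW := Fintype.card_congr (X.e 0)
  have h3 : (Finset.univ.filter fun b => col b = true).card +
      (Finset.univ.filter fun b => col b = false).card = Fintype.card B := by
    rw [← Finset.card_univ, ← Finset.card_filter_add_card_filter_not
      (s := (Finset.univ : Finset B)) (fun b => col b = true)]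
    congr 2
    ext b
    simp
  have h4 : ∀ v, L.Mono col v → v ∈ (Finset.univ.filter fun v => ∀ k b, L.c k b = v →
      col b = true) ∪ Finset.univ.filter fun v => ∀ k b, L.c k b = v → col b = false := by
    intro v hv
    obtain ⟨k, b, hkb⟩ := L.surj v
    rw [Finset.mem_union, Finset.mem_filter, Finset.mem_filter]
    have h5 : ∀ k' b', L.c k' b' = v → col b' = col b := by
      intro k' b' h
      have h6 : k' = k := L.cls _ _ _ _ (h.trans hkb.symm)
      subst h6
      exact hv k' b' b h hkb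
    cases hb : col b
    · right
      refine ⟨Finset.mem_univ _, fun k' b' h => ?_⟩
      rw [h5 k' b' h, hb]
    · left
      refine ⟨Finset.mem_univ _, fun k' b' h => ?_⟩
      rw [h5 k' b' h, hb]
  have h5 : ({x, y, z} : Finset V).card = 3 := Finset.card_eq_three.2 ⟨x, y, z, hxy, hxz, hyz, rfl⟩
  have h6 : ({x, y, z} : Finset V) ⊆ (Finset.univ.filter fun v => ∀ k b, L.c k b = v →
      col b = true) ∪ Finset.univ.filter fun v => ∀ k b, L.c k b = v → col b = false := by
    intro v hv
    rw [Finset.mem_insert, Finset.mem_insert, Finset.mem_singleton] at hv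
    rcases hv with rfl | rfl | rfl
    · exact h4 _ hx
    · exact h4 _ hy
    · exact h4 _ hz
  have h7 := Finset.card_le_card h6
  have h8 := Finset.card_union_le (Finset.univ.filter fun v => ∀ k b, L.c k b = v →
      col b = true) (Finset.univ.filter fun v => ∀ k b, L.c k b = v → col b = false)
  omega

/-- on every face there is at most one change from `σ` to `!σ` -/
theorem trans_unique (L : Lab X V) (hc : Fintype.card V = Fintype.card B + 2)
    (hN : 2 ≤ Fintype.card B) (hs : X.Split col) {k : Fin 3} {a a' b b' : B}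
    (ha : X.e (k + 1) a' = X.e (k + 2) a) (hb : X.e (k + 1) b' = X.e (k + 2) b)
    (hab : L.c k a = L.c k b) {σ : Bool} (h1 : col a = σ) (h2 : col a' = !σ)
    (h3 : col b = σ) (h4 : col b' = !σ) : a = b := by
  classical
  have hra := Tr_rho_eq X ha
  have hrb := Tr_rho_eq X hb
  have ma : (k, a) ∈ TrT X col σ := Tr_mem.2 ⟨h1, by rw [hra]; exact h2⟩
  have mb : (k, b) ∈ TrT X col σ := Tr_mem.2 ⟨h3, by rw [hrb]; exact h4⟩
  have h5 : (Finset.univ.filter fun v => L.Mono col v).card ≤ 2 := by
    by_contra hcon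
    push Not at hcon
    obtain ⟨x, hx, y, hy, z, hz, hxy, hxz, hyz⟩ := Finset.two_lt_card.1 hcon
    exact mono_le L hN hs (Finset.mem_filter.1 hx).2 (Finset.mem_filter.1 hy).2
      (Finset.mem_filter.1 hz).2 hxy hxz hyz
  have h6 := Finset.card_filter_add_card_filter_not (s := (Finset.univ : Finset V))
    (fun v => L.Mono col v)
  rw [Finset.card_univ] at h6
  have h7 : (TrT X col σ).card ≤ (Finset.univ.filter fun v => ¬ L.Mono col v).card := by
    rw [Tr_card hN hs]
    omega
  have h8 := Finset.injOn_of_surjOn_of_card_le (fun p : Fin 3 × B => L.c p.1 p.2)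
    (s := TrT X col σ) (t := Finset.univ.filter fun v => ¬ L.Mono col v)
    (by
      rintro ⟨k, a⟩ h
      exact Finset.mem_coe.2 (Finset.mem_filter.2 ⟨Finset.mem_univ _,
        Tr_not_mono L (Finset.mem_coe.1 h)⟩))
    (by
      intro v hv
      obtain ⟨k, a, h9, h10⟩ := Tr_exists L (Finset.mem_filter.1 (Finset.mem_coe.1 hv)).2 σ
      exact ⟨(k, a), Finset.mem_coe.2 h9, h10⟩) h7
  exact (Prod.ext_iff.1 (h8 (Finset.mem_coe.2 ma) (Finset.mem_coe.2 mb) hab)).2

/-- if `b₂` differs from both its neighbours on a face, then it is the only black vertex of its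
colour on this face -/
theorem arc (L : Lab X V) (hc : Fintype.card V = Fintype.card B + 2)
    (hN : 2 ≤ Fintype.card B) (hs : X.Split col) {k : Fin 3} {p b₂ n : B}
    (hp : X.e (k + 1) b₂ = X.e (k + 2) p) (hn : X.e (k + 1) n = X.e (k + 2) b₂)
    (h2 : col b₂ = false) (h1 : col p = true) (h3 : col n = true) :
    ∀ b, L.c k b = L.c k b₂ → b ≠ b₂ → col b = true := by
  have hcp : L.c k b₂ = L.c k p := L.step k p b₂ hp
  have hcn : L.c k n = L.c k b₂ := L.step k b₂ n hn
  have key : ∀ m : ℕ, L.c k ((X.rho k ^ m) n) = L.c k b₂ ∧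
      (col ((X.rho k ^ m) n) = true ∨ (X.rho k ^ m) n = b₂) := by
    intro m
    induction m with
    | zero => exact ⟨hcn, Or.inl h3⟩
    | succ m ih =>
      rw [pow_succ', Equiv.Perm.mul_apply]
      refine ⟨(Tr_c_rho L k _).trans ih.1, ?_⟩
      rcases ih.2 with h4 | h4
      · by_cases h5 : col (X.rho k ((X.rho k ^ m) n)) = true
        · exact Or.inl h5
        · right
          have h6 := trans_unique L hc hN hs (σ := true) (Tr_rho X k ((X.rho k ^ m) n)) hp
            (ih.1.trans hcp) h4 (by simpa using h5) h1 (by simpa using h2)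
          rw [h6]
          exact Tr_rho_eq X hp
      · left
        rw [h4, Tr_rho_eq X hn]
        exact h3
  intro b hb hne
  obtain ⟨m, hm⟩ := ((L.sameFace k n b).2 (hcn.trans hb.symm)).exists_nat_pow_eq
  have h4 := key m
  rw [hm] at h4
  exact h4.2.resolve_right hne

end Vale.Agent.P039.Sk
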